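import Vale.Agent.P166.Wide.Fam

/-!
# P166: splitting each class of constraints into two blocks
-/

open MeasureTheory ProbabilityTheory Real Filter Topology

namespace Vale.Agent.P166.Wide

open Vale.Agent.P157

variable {ι X : Type} [Fintype ι] [Fintype X] [Nonempty X]

theorem fam_fin_lip {C : Type} [Fintype C] {f : ℝ → ℝ} {u : X → ι → ℝ} {z : C → X → ι → ℝ}
    (hu : Good (fun _ : Unit => f) (fun _ => u)) (hz : Good (fun _ : C => f) z) {L : ℝ}
    (hL : ∀ r, |f r| ≤ L) (i i' : ℕ) {w : X → ℝ} (hw : ∀ x, 0 < w x) :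
    |fam (fun _ : Fin i ⊕ C => f) (Sum.elim (fun _ => u) z) w
      - fam (fun _ : Fin i' ⊕ C => f) (Sum.elim (fun _ => u) z) w| ≤ L * |(i : ℝ) - i'| := by
  wlog h : i ≤ i' generalizing i i'
  · rw [abs_sub_comm, abs_sub_comm (i : ℝ)]; exact this i' i (le_of_not_ge h)
  obtain ⟨d, rfl⟩ := Nat.exists_eq_add_of_le h
  have hg : Good (fun _ : (Fin i ⊕ C) ⊕ Fin d => f)
      (Sum.elim (Sum.elim (fun _ => u) z) fun _ => u) := by
    rintro ((a | a) | a)
    exacts [hu (), hz a, hu ()]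
  have hg' : Good (fun _ : Fin (i + d) ⊕ C => f) (Sum.elim (fun _ => u) z) := by
    rintro (a | a)
    exacts [hu (), hz a]
  let e : (Fin i ⊕ C) ⊕ Fin d ≃ Fin (i + d) ⊕ C :=
    (Equiv.sumAssoc _ _ _).trans (((Equiv.refl _).sumCongr (Equiv.sumComm _ _)).trans
      ((Equiv.sumAssoc _ _ _).symm.trans (finSumFinEquiv.sumCongr (Equiv.refl _))))
  have e2 : fam (fun _ : (Fin i ⊕ C) ⊕ Fin d => f) (Sum.elim (Sum.elim (fun _ => u) z) fun _ => u) w
      = fam (fun _ : Fin (i + d) ⊕ C => f) (Sum.elim (fun _ => u) z) w := by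
    rw [← fam_reindex hg' e w]
    congr 1
    funext c
    rcases c with (a | a) | a <;> rfl
  have h0 : |fam (fun _ : (Fin i ⊕ C) ⊕ Fin d => f) (Sum.elim (Sum.elim (fun _ => u) z) fun _ => u) w
      - fam (fun _ : Fin i ⊕ C => f) (Sum.elim (fun _ => u) z) w| ≤ L * Fintype.card (Fin d) :=
    fam_drop hg (fun _ r => hL r) hw
  rw [e2, Fintype.card_fin] at h0
  rw [abs_sub_comm]
  refine h0.trans (le_of_eq ?_)
  simp

/-- A coupled class dominates the class split into two blocks, over any weights. -/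
theorem class_le [MeasurableSpace X] [MeasurableSingletonClass X] {f : ℝ → ℝ}
    (hM : MixIneq fun r => exp (f r)) {L : ℝ} (hf : Continuous f) (hfb : ∀ r, |f r| ≤ L)
    (hft : ∀ r, |f r| ≤ wt r) {v w₁ w₂ : X → ι → ℝ} {p : ℝ} (hp : 0 ≤ p) (hp1 : p ≤ 1)
    (hvw : ∀ x i, v x i = √p * w₁ x i + √(1 - p) * w₂ x i) (hd : ∀ x y i, w₁ x i * w₂ y i = 0)
    (hv : ∀ x, ∑ i, v x i ^ 2 = 1) (h₁ : ∀ x, ∑ i, w₁ x i ^ 2 = 1) (h₂ : ∀ x, ∑ i, w₂ x i ^ 2 = 1)
    (M m₁ m₂ : ℕ) {r : ℝ} (hr : 0 < r) {w : X → ℝ} (hw : ∀ x, 0 < w x) :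
    fam (fun _ : Fin m₁ ⊕ Fin m₂ => f) (Sum.elim (fun _ => w₁) fun _ => w₂) w
      - L * (p * (1 - p) * M / r + r + |p * M - m₁| + |(1 - p) * M - m₂|)
      ≤ fam (fun _ : Fin M => f) (fun _ => v) w := by
  have hL0 : 0 ≤ L := (abs_nonneg _).trans (hfb 0)
  have hgood : ∀ m i j : ℕ, Good (fun _ : Fin m ⊕ (Fin i ⊕ Fin j) => f)
      (Sum.elim (fun _ => v) (Sum.elim (fun _ => w₁) fun _ => w₂)) := by
    rintro m i j (a | a | a)
    exacts [⟨hf, hft, hv⟩, ⟨hf, hft, h₁⟩, ⟨hf, hft, h₂⟩]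
  have g₁ : Good (fun _ : Unit => f) (fun _ => w₁) := fun _ => ⟨hf, hft, h₁⟩
  have g₂ : Good (fun _ : Unit => f) (fun _ => w₂) := fun _ => ⟨hf, hft, h₂⟩
  let R : ℕ → ℕ → ℕ → ℝ := fun m i j => fam (fun _ : Fin m ⊕ (Fin i ⊕ Fin j) => f)
    (Sum.elim (fun _ => v) (Sum.elim (fun _ => w₁) fun _ => w₂)) w
  have step : ∀ m i j, p * R m (i + 1) j + (1 - p) * R m i (j + 1) ≤ R (m + 1) i j := by
    intro m i j
    let T := Fin m ⊕ (Fin i ⊕ Fin j)
    let F : T → X → ι → ℝ := Sum.elim (fun _ => v) (Sum.elim (fun _ => w₁) fun _ => w₂)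
    have hT : ∀ u : X → ι → ℝ, (∀ x, ∑ i, u x i ^ 2 = 1) →
        Good (fun _ : T ⊕ Unit => f) (Sum.elim F fun _ => u) := by
      rintro u hu (a | a)
      exacts [hgood m i j a, ⟨hf, hft, hu⟩]
    let e0 : T ⊕ Unit ≃ Fin (m + 1) ⊕ (Fin i ⊕ Fin j) :=
      (Equiv.sumAssoc _ _ _).trans (((Equiv.refl _).sumCongr (Equiv.sumComm _ _)).trans
        ((Equiv.sumAssoc _ _ _).symm.trans ((((Equiv.refl _).sumCongr finOneEquiv.symm).trans
          finSumFinEquiv).sumCongr (Equiv.refl _))))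
    let ej : Fin j ⊕ Unit ≃ Fin (j + 1) := ((Equiv.refl _).sumCongr finOneEquiv.symm).trans finSumFinEquiv
    let ei : Fin i ⊕ Unit ≃ Fin (i + 1) := ((Equiv.refl _).sumCongr finOneEquiv.symm).trans finSumFinEquiv
    let e1 : T ⊕ Unit ≃ Fin m ⊕ (Fin (i + 1) ⊕ Fin j) :=
      (Equiv.sumAssoc _ _ _).trans ((Equiv.refl _).sumCongr ((Equiv.sumAssoc _ _ _).trans
        (((Equiv.refl _).sumCongr (Equiv.sumComm _ _)).trans
          ((Equiv.sumAssoc _ _ _).symm.trans (ei.sumCongr (Equiv.refl _))))))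
    let e2 : T ⊕ Unit ≃ Fin m ⊕ (Fin i ⊕ Fin (j + 1)) :=
      (Equiv.sumAssoc _ _ _).trans ((Equiv.refl _).sumCongr ((Equiv.sumAssoc _ _ _).trans
        ((Equiv.refl _).sumCongr ej)))
    have r0 : R (m + 1) i j = fam (fun _ : T ⊕ Unit => f) (Sum.elim F fun _ => v) w := by
      simp only [R]; rw [← fam_reindex (hgood _ _ _) e0]
      congr 1; funext c; rcases c with ((a | a | a) | a) <;> rfl
    have r1 : R m (i + 1) j = fam (fun _ : T ⊕ Unit => f) (Sum.elim F fun _ => w₁) w := by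
      simp only [R]; rw [← fam_reindex (hgood _ _ _) e1]
      congr 1; funext c; rcases c with ((a | a | a) | a) <;> rfl
    have r2 : R m i (j + 1) = fam (fun _ : T ⊕ Unit => f) (Sum.elim F fun _ => w₂) w := by
      simp only [R]; rw [← fam_reindex (hgood _ _ _) e2]
      congr 1; funext c; rcases c with ((a | a | a) | a) <;> rfl
    obtain ⟨q0, i0⟩ := fam_sum (hT v hv) hw
    obtain ⟨q1, i1⟩ := fam_sum (hT w₁ h₁) hw
    obtain ⟨q2, i2⟩ := fam_sum (hT w₂ h₂) hw
    rw [r0, r1, r2, q0, q1, q2, ← integral_const_mul, ← integral_const_mul,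
      ← integral_add (i1.const_mul _) (i2.const_mul _)]
    refine integral_mono ((i1.const_mul _).add (i2.const_mul _)) i0 fun G => ?_
    exact fam_mix hM hf hfb hft hp hp1 hvw hd hv h₁ h₂ fun x => mul_pos (hw x) (exp_pos _)
  set c : ℝ := p * M with hc
  set S := fam (fun _ : Fin m₁ ⊕ Fin m₂ => f) (Sum.elim (fun _ => w₁) fun _ => w₂) w with hS
  have main : ∀ m i j : ℕ, i + j + m = M →
      S - L * (((i + p * m - c) ^ 2 + p * (1 - p) * m) / r + r + |c - m₁| + |(1 - p) * M - m₂|)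
        ≤ R m i j := by
    intro m
    induction m with
    | zero =>
      intro i j hij
      let P : ℕ → ℕ → ℝ := fun i j =>
        fam (fun _ : Fin i ⊕ Fin j => f) (Sum.elim (fun _ => w₁) fun _ => w₂) w
      have e : R 0 i j = P i j := by
        simp only [R, P]
        rw [← fam_reindex (hgood 0 i j) (Equiv.emptySum (Fin 0) (Fin i ⊕ Fin j)).symm]
        congr 1
      have hsw : ∀ a b, fam (fun _ : Fin b ⊕ Fin a => f) (Sum.elim (fun _ => w₂) fun _ => w₁) w
          = P a b := by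
        intro a b
        simp only [P]
        rw [← fam_reindex (f := fun _ : Fin a ⊕ Fin b => f)
          (v := Sum.elim (fun _ => w₁) fun _ => w₂) (by rintro (t | t); exacts [g₁ (), g₂ ()])
          (Equiv.sumComm (Fin b) (Fin a))]
        congr 1
        funext t
        rcases t with t | t <;> rfl
      have a1 : |P i j - P m₁ j| ≤ L * |(i : ℝ) - m₁| :=
        fam_fin_lip (z := fun _ : Fin j => w₂) g₁ (fun _ => g₂ ()) hfb i m₁ hw
      have a2 : |P m₁ j - P m₁ m₂| ≤ L * |(j : ℝ) - m₂| := by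
        rw [← hsw, ← hsw]
        exact fam_fin_lip (z := fun _ : Fin m₁ => w₁) g₂ (fun _ => g₁ ()) hfb j m₂ hw
      have eS : S = P m₁ m₂ := rfl
      have a1' := abs_le.1 a1
      have a2' := abs_le.1 a2
      have b1 := abs_sub_le (i : ℝ) c m₁
      have hj : (j : ℝ) = M - i := by
        have : (i : ℝ) + j = M := by exact_mod_cast (by omega : i + j = M)
        linarith
      have b2 : |(j : ℝ) - m₂| ≤ |(i : ℝ) - c| + |(1 - p) * M - m₂| := by
        calc |(j : ℝ) - m₂| = |(c - i) + ((1 - p) * M - m₂)| := by rw [hj, hc]; ring_nf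
          _ ≤ _ := (abs_add_le _ _).trans (by rw [abs_sub_comm c])
      have b3 := two_mul_abs_le (d := (i : ℝ) - c) hr
      rw [e, eS]
      simp only [CharP.cast_eq_zero, mul_zero, add_zero]
      nlinarith [mul_le_mul_of_nonneg_left b1 hL0, mul_le_mul_of_nonneg_left b2 hL0,
        mul_le_mul_of_nonneg_left b3 hL0]
    | succ m ih =>
      intro i j hij
      have A := ih (i + 1) j (by omega)
      have B := ih i (j + 1) (by omega)
      refine le_trans (le_of_eq ?_) ((add_le_add (mul_le_mul_of_nonneg_left A hp)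
        (mul_le_mul_of_nonneg_left B (sub_nonneg.2 hp1))).trans (step m i j))
      push_cast
      ring
  have h := main M 0 0 (by simp)
  have e : R M 0 0 = fam (fun _ : Fin M => f) (fun _ => v) w := by
    simp only [R]
    rw [← fam_reindex (hgood M 0 0) (Equiv.sumEmpty (Fin M) (Fin 0 ⊕ Fin 0)).symm]
    congr 1
  rw [e] at h
  refine le_trans (le_of_eq ?_) h
  simp only [hc, CharP.cast_eq_zero, zero_add, sub_self]
  ring

/-- The first class next to the others. -/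
def sigmaSucc {k : ℕ} (A : Fin (k + 1) → Type) :
    A 0 ⊕ (Σ j : Fin k, A j.succ) ≃ Σ j, A j where
  toFun := Sum.elim (fun a => ⟨0, a⟩) fun z => ⟨z.1.succ, z.2⟩
  invFun z := Fin.cases (motive := fun j => A j → A 0 ⊕ (Σ j : Fin k, A j.succ))
    (fun a => Sum.inl a) (fun i a => Sum.inr ⟨i, a⟩) z.1 z.2
  left_inv z := by rcases z with a | ⟨i, a⟩ <;> simp
  right_inv z := by
    obtain ⟨j, a⟩ := z
    induction j using Fin.cases <;> simp

/-- A comparison in every class gives one for all classes together. -/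
theorem classes_le {k : ℕ} : ∀ (A A' : Fin k → Type) [∀ j, Fintype (A j)] [∀ j, Fintype (A' j)]
    (f : ∀ j, A j → ℝ → ℝ) (v : ∀ j, A j → X → ι → ℝ) (f' : ∀ j, A' j → ℝ → ℝ)
    (v' : ∀ j, A' j → X → ι → ℝ) (d : Fin k → ℝ), (∀ j, Good (f j) (v j)) → (∀ j, Good (f' j) (v' j)) →
    (∀ j (w : X → ℝ), (∀ x, 0 < w x) → fam (f j) (v j) w - d j ≤ fam (f' j) (v' j) w) →
    ∀ w : X → ℝ, (∀ x, 0 < w x) →
      fam (fun z : Σ j, A j => f z.1 z.2) (fun z => v z.1 z.2) w - ∑ j, d j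
        ≤ fam (fun z : Σ j, A' j => f' z.1 z.2) (fun z => v' z.1 z.2) w := by
  induction k with
  | zero =>
    intro A A' _ _ f v f' v' d _ _ _ w _
    simp [fam_empty]
  | succ k ih =>
    intro A A' _ _ f v f' v' d hg hg' hle w hw
    have g : Good (fun z : Σ j, A j => f z.1 z.2) (fun z => v z.1 z.2) := fun z => hg z.1 z.2
    have g' : Good (fun z : Σ j, A' j => f' z.1 z.2) (fun z => v' z.1 z.2) := fun z => hg' z.1 z.2
    rw [← fam_reindex g (sigmaSucc A), ← fam_reindex g' (sigmaSucc A'), Fin.sum_univ_succ]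
    let F : A 0 ⊕ (Σ j : Fin k, A' j.succ) → ℝ → ℝ :=
      Sum.elim (f 0) fun z => f' z.1.succ z.2
    let V : A 0 ⊕ (Σ j : Fin k, A' j.succ) → X → ι → ℝ :=
      Sum.elim (v 0) fun z => v' z.1.succ z.2
    have gm : Good F V := by
      rintro (a | z)
      exacts [hg 0 a, hg' z.1.succ z.2]
    have s1 := fam_mono_right (f := (fun z : Σ j, A j => f z.1 z.2) ∘ ⇑(sigmaSucc A))
      (v := (fun z : Σ j, A j => v z.1 z.2) ∘ ⇑(sigmaSucc A)) (f' := F) (v' := V)
      (g.comp _) gm rfl rfl (d := ∑ j : Fin k, d j.succ)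
      (fun w' hw' => ih (fun j => A j.succ) (fun j => A' j.succ) (fun j => f j.succ)
        (fun j => v j.succ) (fun j => f' j.succ) (fun j => v' j.succ) (fun j => d j.succ)
        (fun j => hg j.succ) (fun j => hg' j.succ) (fun j => hle j.succ) w' hw') hw
    have s2 := fam_mono_left (f := F) (v := V)
      (f' := (fun z : Σ j, A' j => f' z.1 z.2) ∘ ⇑(sigmaSucc A'))
      (v' := (fun z : Σ j, A' j => v' z.1 z.2) ∘ ⇑(sigmaSucc A'))
      gm (g'.comp _) rfl rfl (d := d 0) (fun w' hw' => hle 0 w' hw') hw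
    linarith

end Vale.Agent.P166.Wide
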