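import Vale.Agent.P157.Cap

/-!
# P166: log partition functions with several families of constraints
-/

open MeasureTheory ProbabilityTheory Real Filter Topology

namespace Vale.Agent.P166.Wide

open Vale.Agent.P157

variable {ι X A B C : Type} [Fintype ι] [Fintype A] [Fintype B] [Fintype C] [Fintype X] [Nonempty X]

/-- The energy of a family of constraints. -/
def energy (f : A → ℝ → ℝ) (v : A → X → ι → ℝ) (G : A → ι → ℝ) (x : X) : ℝ :=
  ∑ a, f a (dot (G a) (v a x))

/-- The expected log partition function of a family of constraints over positive weights. -/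
noncomputable def fam (f : A → ℝ → ℝ) (v : A → X → ι → ℝ) (w : X → ℝ) : ℝ :=
  ∫ G, lse w (energy f v G) ∂(Measure.pi fun _ : A => gauss ι)

/-- Continuous potentials below the Gaussian majorant, along unit fields. -/
def Good (f : A → ℝ → ℝ) (v : A → X → ι → ℝ) : Prop :=
  ∀ a, Continuous (f a) ∧ (∀ r, |f a r| ≤ wt r) ∧ ∀ x, ∑ i, v a x i ^ 2 = 1

omit [Fintype A] [Fintype B] [Fintype X] [Nonempty X] in
theorem Good.comp {f : A → ℝ → ℝ} {v : A → X → ι → ℝ} (h : Good f v) (e : B → A) :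
    Good (f ∘ e) (v ∘ e) := fun b => h (e b)

omit [Nonempty X] in
theorem lse_shift (w b d : X → ℝ) : lse (fun x => w x * exp (b x)) d = lse w (b + d) := by
  simp only [lse, Pi.add_apply, exp_add, mul_assoc]

omit [Nonempty X] in
theorem lse_const (w : X → ℝ) : lse w 0 = log (∑ x, w x) := by simp [lse]

theorem abs_lse_sub {w : X → ℝ} (hw : ∀ x, 0 < w x) {b b' : X → ℝ} {D : ℝ}
    (h : ∀ x, |b x - b' x| ≤ D) : |lse w b - lse w b'| ≤ D := by
  have key : ∀ b b' : X → ℝ, (∀ x, b x ≤ b' x + D) → lse w b ≤ lse w b' + D := by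
    intro b b' h
    have h' : ∑ x, w x * exp (b x) ≤ (∑ x, w x * exp (b' x)) * exp D := by
      rw [Finset.sum_mul]
      refine Finset.sum_le_sum fun x _ => ?_
      rw [mul_assoc, ← exp_add]
      exact mul_le_mul_of_nonneg_left (exp_le_exp.2 (h x)) (hw x).le
    have := log_le_log (lse_pos_aux hw b) h'
    rwa [log_mul (lse_pos_aux hw b').ne' (exp_pos _).ne', log_exp] at this
  rw [abs_le]
  constructor
  · linarith [key b' b fun x => by linarith [(abs_le.1 (h x)).1]]
  · linarith [key b b' fun x => by linarith [(abs_le.1 (h x)).2]]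

omit [Nonempty X] in
theorem measurable_lse_energy {f : A → ℝ → ℝ} {v : A → X → ι → ℝ} (h : Good f v) (w : X → ℝ) :
    Measurable fun G : A → ι → ℝ => lse w (energy f v G) :=
  (Finset.measurable_sum _ fun x _ => (Finset.measurable_sum _ fun a _ => (h a).1.measurable.comp
    ((measurable_dot_left (v a x)).comp (measurable_pi_apply a))).exp.const_mul _).log

omit [Nonempty X] in
theorem energy_majorant_integrable {f : A → ℝ → ℝ} {v : A → X → ι → ℝ} (h : Good f v) :
    Integrable (fun G => ∑ x, ∑ a, wt (dot (G a) (v a x))) (Measure.pi fun _ : A => gauss ι) :=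
  integrable_finsetSum _ fun x _ => integrable_finsetSum _ fun a _ =>
    ((measurePreserving_eval (fun _ : A => gauss ι) a).integrable_comp
      (integral_wt_dot ((h a).2.2 x)).1.aestronglyMeasurable).2 (integral_wt_dot ((h a).2.2 x)).1

omit [Nonempty X] in
theorem sum_abs_energy_le {f : A → ℝ → ℝ} {v : A → X → ι → ℝ} (h : Good f v) (G : A → ι → ℝ) :
    ∑ x, |energy f v G x| ≤ ∑ x, ∑ a, wt (dot (G a) (v a x)) :=
  Finset.sum_le_sum fun _ _ =>
    (Finset.abs_sum_le_sum_abs _ _).trans (Finset.sum_le_sum fun a _ => (h a).2.1 _)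

theorem fam_integrable {f : A → ℝ → ℝ} {v : A → X → ι → ℝ} (h : Good f v) {w : X → ℝ}
    (hw : ∀ x, 0 < w x) :
    Integrable (fun G => lse w (energy f v G)) (Measure.pi fun _ : A => gauss ι) := by
  refine Integrable.mono' (g := fun G => |log (∑ x, w x)| + ∑ x, ∑ a, wt (dot (G a) (v a x)))
    ((integrable_const _).add (energy_majorant_integrable h))
    (measurable_lse_energy h w).aestronglyMeasurable (ae_of_all _ fun G => ?_)
  rw [Real.norm_eq_abs]
  exact (abs_lse_le hw _).trans (add_le_add_right (sum_abs_energy_le h G) _)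

theorem fam_reindex {f : A → ℝ → ℝ} {v : A → X → ι → ℝ} (h : Good f v) (e : B ≃ A) (w : X → ℝ) :
    fam (f ∘ e) (v ∘ e) w = fam f v w := by
  rw [fam, fam, ← integral_of_preserving
    (measurePreserving_piCongrLeft (α := fun _ => ι → ℝ) (fun _ : A => gauss ι) e)
    (measurable_lse_energy h w)]
  refine integral_congr_ae (ae_of_all _ fun G => ?_)
  simp only
  congr 1
  funext x
  simp only [energy]
  rw [← e.sum_comp fun a => f a (dot _ (v a x))]
  refine Finset.sum_congr rfl fun a _ => ?_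
  rw [MeasurableEquiv.coe_piCongrLeft, Equiv.piCongrLeft_apply_apply]
  rfl

theorem fam_empty [IsEmpty A] (f : A → ℝ → ℝ) (v : A → X → ι → ℝ) (w : X → ℝ) :
    fam f v w = log (∑ x, w x) := by
  have : ∀ G, energy f v G = 0 := fun G => by funext x; simp [energy]
  simp only [fam, this, lse_const]
  simp

theorem fam_sum {f : A ⊕ B → ℝ → ℝ} {v : A ⊕ B → X → ι → ℝ} (h : Good f v) {w : X → ℝ}
    (hw : ∀ x, 0 < w x) :
    fam f v w = ∫ G : A → ι → ℝ, fam (f ∘ Sum.inr) (v ∘ Sum.inr)
        (fun x => w x * exp (energy (f ∘ Sum.inl) (v ∘ Sum.inl) G x)) ∂(Measure.pi fun _ => gauss ι) ∧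
      Integrable (fun G : A → ι → ℝ => fam (f ∘ Sum.inr) (v ∘ Sum.inr)
        (fun x => w x * exp (energy (f ∘ Sum.inl) (v ∘ Sum.inl) G x))) (Measure.pi fun _ => gauss ι) := by
  let F : (A → ι → ℝ) × (B → ι → ℝ) → ℝ := fun z => lse
    (fun x => w x * exp (energy (f ∘ Sum.inl) (v ∘ Sum.inl) z.1 x)) (energy (f ∘ Sum.inr) (v ∘ Sum.inr) z.2)
  let e := MeasurableEquiv.sumPiEquivProdPi (fun _ : A ⊕ B => ι → ℝ)
  have he : MeasurePreserving e (Measure.pi fun _ => gauss ι)
      ((Measure.pi fun _ : A => gauss ι).prod (Measure.pi fun _ : B => gauss ι)) :=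
    measurePreserving_sumPiEquivProdPi (fun _ : A ⊕ B => gauss ι)
  have hFe : ∀ G, F (e G) = lse w (energy f v G) := fun G => by
    simp only [F, lse_shift]
    congr 1
    funext x
    simp only [Pi.add_apply, energy, Fintype.sum_sum_type]
    rfl
  have hi : Integrable F ((Measure.pi fun _ : A => gauss ι).prod (Measure.pi fun _ : B => gauss ι)) := by
    rw [← he.integrable_comp_emb e.measurableEmbedding]
    exact (fam_integrable h hw).congr (ae_of_all _ fun G => (hFe G).symm)
  refine ⟨?_, hi.integral_prod_left⟩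
  simp only [fam]
  rw [← integral_prod F hi, ← he.integral_comp e.measurableEmbedding F]
  exact integral_congr_ae (ae_of_all _ fun G => (hFe G).symm)

/-- A uniform comparison of the right-hand family survives a frozen left-hand family. -/
theorem fam_mono_right {f : A ⊕ B → ℝ → ℝ} {v : A ⊕ B → X → ι → ℝ} {f' : A ⊕ C → ℝ → ℝ}
    {v' : A ⊕ C → X → ι → ℝ} (h : Good f v) (h' : Good f' v')
    (hf : f ∘ Sum.inl = f' ∘ Sum.inl) (hv : v ∘ Sum.inl = v' ∘ Sum.inl) {d : ℝ}
    (hle : ∀ w : X → ℝ, (∀ x, 0 < w x) →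
      fam (f ∘ Sum.inr) (v ∘ Sum.inr) w - d ≤ fam (f' ∘ Sum.inr) (v' ∘ Sum.inr) w)
    {w : X → ℝ} (hw : ∀ x, 0 < w x) : fam f v w - d ≤ fam f' v' w := by
  obtain ⟨e1, i1⟩ := fam_sum h hw
  obtain ⟨e2, i2⟩ := fam_sum h' hw
  rw [e1, e2]
  have hd : ∫ _G : A → ι → ℝ, d ∂(Measure.pi fun _ => gauss ι) = d := by simp
  rw [← hd, ← integral_sub i1 (integrable_const _)]
  refine integral_mono (i1.sub (integrable_const _)) i2 fun G => ?_
  simp only [← hf, ← hv]
  exact hle _ fun x => mul_pos (hw x) (exp_pos _)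

theorem fam_mono_left {f : A ⊕ C → ℝ → ℝ} {v : A ⊕ C → X → ι → ℝ} {f' : B ⊕ C → ℝ → ℝ}
    {v' : B ⊕ C → X → ι → ℝ} (h : Good f v) (h' : Good f' v')
    (hf : f ∘ Sum.inr = f' ∘ Sum.inr) (hv : v ∘ Sum.inr = v' ∘ Sum.inr) {d : ℝ}
    (hle : ∀ w : X → ℝ, (∀ x, 0 < w x) →
      fam (f ∘ Sum.inl) (v ∘ Sum.inl) w - d ≤ fam (f' ∘ Sum.inl) (v' ∘ Sum.inl) w)
    {w : X → ℝ} (hw : ∀ x, 0 < w x) : fam f v w - d ≤ fam f' v' w := by
  rw [← fam_reindex h (Equiv.sumComm C A), ← fam_reindex h' (Equiv.sumComm C B)]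
  exact fam_mono_right (f := f ∘ ⇑(Equiv.sumComm C A)) (f' := f' ∘ ⇑(Equiv.sumComm C B))
    (h.comp ⇑(Equiv.sumComm C A)) (h'.comp ⇑(Equiv.sumComm C B)) hf hv hle hw

/-- Dropping a bounded family costs at most the bound per constraint. -/
theorem fam_drop {f : A ⊕ B → ℝ → ℝ} {v : A ⊕ B → X → ι → ℝ} (h : Good f v) {L : ℝ}
    (hL : ∀ b r, |f (Sum.inr b) r| ≤ L) {w : X → ℝ} (hw : ∀ x, 0 < w x) :
    |fam f v w - fam (f ∘ Sum.inl) (v ∘ Sum.inl) w| ≤ L * Fintype.card B := by
  obtain ⟨e, i⟩ := fam_sum h hw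
  have i' := fam_integrable (h.comp Sum.inl) hw
  rw [e, fam, ← integral_sub i i']
  refine ((Real.norm_eq_abs _).symm.le.trans (norm_integral_le_of_norm_le_const
    (C := L * Fintype.card B) (ae_of_all _ fun G => ?_))).trans (by simp)
  set w' : X → ℝ := fun x => w x * exp (energy (f ∘ Sum.inl) (v ∘ Sum.inl) G x)
  have hw' : ∀ x, 0 < w' x := fun x => mul_pos (hw x) (exp_pos _)
  have e0 : lse w (energy (f ∘ Sum.inl) (v ∘ Sum.inl) G) = lse w' 0 := by
    rw [lse_shift, add_zero]
  rw [Real.norm_eq_abs, e0, fam]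
  have hc : lse w' 0 = ∫ _H : B → ι → ℝ, lse w' 0 ∂(Measure.pi fun _ => gauss ι) := by simp
  rw [hc, ← integral_sub (fam_integrable (h.comp Sum.inr) hw') (integrable_const _)]
  refine ((Real.norm_eq_abs _).symm.le.trans (norm_integral_le_of_norm_le_const
    (C := L * Fintype.card B) (ae_of_all _ fun H => ?_))).trans (by simp)
  rw [Real.norm_eq_abs]
  refine abs_lse_sub hw' fun x => ?_
  rw [Pi.zero_apply, sub_zero]
  refine (Finset.abs_sum_le_sum_abs _ _).trans ((Finset.sum_le_sum fun b _ => hL b _).trans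
    (le_of_eq ?_))
  simp [mul_comm]

/-- The weighted law on finitely many points. -/
noncomputable def wLaw [MeasurableSpace X] (w : X → ℝ) : Measure X :=
  Measure.count.tilted fun x => log (w x)

theorem wLaw_spec [MeasurableSpace X] [MeasurableSingletonClass X] {w : X → ℝ} (hw : ∀ x, 0 < w x) :
    IsProbabilityMeasure (wLaw w) ∧
      ∀ h : X → ℝ, ∫ x, h x ∂wLaw w = (∑ x, w x * h x) / ∑ x, w x := by
  have hc : ∀ h : X → ℝ, ∫ x, h x ∂(Measure.count : Measure X) = ∑ x, h x := fun h => by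
    simp [integral_fintype Integrable.of_finite, measureReal_def]
  refine ⟨isProbabilityMeasure_tilted Integrable.of_finite, fun h => ?_⟩
  rw [wLaw, integral_tilted, hc, hc, Finset.sum_div]
  refine Finset.sum_congr rfl fun x _ => ?_
  simp only [smul_eq_mul, exp_log (hw _), div_mul_eq_mul_div]

/-- The two-block inequality for one constraint over arbitrary weights. -/
theorem fam_mix [MeasurableSpace X] [MeasurableSingletonClass X] {f : ℝ → ℝ}
    (hM : MixIneq fun r => exp (f r)) {L : ℝ} (hf : Continuous f) (hfb : ∀ r, |f r| ≤ L)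
    (hft : ∀ r, |f r| ≤ wt r) {v w₁ w₂ : X → ι → ℝ} {p : ℝ} (hp : 0 ≤ p) (hp1 : p ≤ 1)
    (hvw : ∀ x i, v x i = √p * w₁ x i + √(1 - p) * w₂ x i) (hd : ∀ x y i, w₁ x i * w₂ y i = 0)
    (hv : ∀ x, ∑ i, v x i ^ 2 = 1) (h₁ : ∀ x, ∑ i, w₁ x i ^ 2 = 1) (h₂ : ∀ x, ∑ i, w₂ x i ^ 2 = 1)
    {w : X → ℝ} (hw : ∀ x, 0 < w x) :
    p * fam (fun _ : Unit => f) (fun _ => w₁) w + (1 - p) * fam (fun _ : Unit => f) (fun _ => w₂) w
      ≤ fam (fun _ : Unit => f) (fun _ => v) w := by
  obtain ⟨hP, hI⟩ := wLaw_spec hw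
  have key : ∀ u : X → ι → ℝ, (∀ x, ∑ i, u x i ^ 2 = 1) →
      fam (fun _ : Unit => f) (fun _ => u) w
        = log (∑ x, w x) + oneStep (fun r => exp (f r)) (wLaw w) u := by
    intro u hu
    have h : Good (fun _ : Unit => f) (fun _ => u) := fun _ => ⟨hf, hft, hu⟩
    have hW : 0 < ∑ x, w x := Finset.sum_pos (fun x _ => hw x) Finset.univ_nonempty
    have hpt : ∀ g, log (∫ x, exp (f (dot g (u x))) ∂wLaw w)
        = lse w (fun x => f (dot g (u x))) - log (∑ x, w x) := fun g => by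
      rw [hI, log_div (lse_pos_aux hw _).ne' hW.ne', lse]
    have hm : Measurable fun g : ι → ℝ => lse w fun x => f (dot g (u x)) :=
      (Finset.measurable_sum _ fun x _ =>
        ((hf.measurable.comp (measurable_dot_left (u x))).exp.const_mul _)).log
    have hb : ∀ g, ‖lse w fun x => f (dot g (u x))‖ ≤ |log (∑ x, w x)| + L := fun g => by
      have h0 := abs_lse_sub hw (b := fun x => f (dot g (u x))) (b' := 0) (D := L)
        fun x => by simpa using hfb _
      rw [lse_const] at h0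
      rw [Real.norm_eq_abs]
      linarith [abs_sub_abs_le_abs_sub (lse w fun x => f (dot g (u x))) (log (∑ x, w x))]
    rw [oneStep]
    simp only [hpt]
    rw [integral_sub (Integrable.of_bound hm.aestronglyMeasurable _ (ae_of_all _ hb))
      (integrable_const _), fam]
    have he : ∀ G : Unit → ι → ℝ, energy (fun _ : Unit => f) (fun _ => u) G
        = fun x => f (dot (G ()) (u x)) := fun G => by funext x; simp [energy]
    simp only [he]
    rw [integral_of_preserving (measurePreserving_eval (fun _ : Unit => gauss ι) ()) hm]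
    simp
  rw [key v hv, key w₁ h₁, key w₂ h₂]
  have := hM ι X (wLaw w) v w₁ w₂ p hp hp1 (measurable_of_countable _) (measurable_of_countable _)
    (measurable_of_countable _) hvw hd (ae_of_all _ h₁) (ae_of_all _ h₂)
  linarith

end Vale.Agent.P166.Wide
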