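import Vale.Agent.P157.Cap
import Vale.Agent.P150.Limit

/-!
# P166: the Gaussian coupling over arbitrary positive weights
-/

open MeasureTheory ProbabilityTheory Real Filter Topology

namespace Vale.Agent.P166.Wide

open Vale.Agent.P157 Vale.Agent.P150

variable {κ X : Type} [Fintype κ] [Fintype X] [Nonempty X] {A : X → κ → ℝ}

/-- The weighted log partition function of a linear exponent. -/
noncomputable def wpress (W : X → ℝ) (A : X → κ → ℝ) (c g : κ → ℝ) : ℝ := lse W (expo A c g)

/-- The weighted Gibbs average. -/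
noncomputable def wavg (W : X → ℝ) (A : X → κ → ℝ) (c g : κ → ℝ) (k : κ) : ℝ :=
  (∑ x, W x * exp (expo A c g x) * A x k) / ∑ x, W x * exp (expo A c g x)

omit [Nonempty X] in
theorem measurable_wpress (W : X → ℝ) (A : X → κ → ℝ) (c : κ → ℝ) :
    Measurable fun g => wpress W A c g := by
  unfold wpress lse expo; fun_prop

omit [Nonempty X] in
theorem measurable_wavg (W : X → ℝ) (A : X → κ → ℝ) (c : κ → ℝ) (k : κ) :
    Measurable fun g => wavg W A c g k := by
  unfold wavg expo; fun_prop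

omit [Fintype X] [Nonempty X] in
theorem abs_expo_le (hA : ∀ x k, A x k ^ 2 = 1) (c g : κ → ℝ) (x : X) :
    |expo A c g x| ≤ ∑ k, |c k| * |g k| := by
  refine (Finset.abs_sum_le_sum_abs _ _).trans (Finset.sum_le_sum fun k _ => le_of_eq ?_)
  rw [abs_mul, abs_mul]
  rcases sq_eq_one_iff.1 (hA x k) with h | h <;> simp [h]

theorem abs_wavg_le {W : X → ℝ} (hW : ∀ x, 0 < W x) (hA : ∀ x k, A x k ^ 2 = 1) (c g : κ → ℝ)
    (k : κ) : |wavg W A c g k| ≤ 1 := by
  have hS := lse_pos_aux hW (expo A c g)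
  rw [wavg, abs_div, abs_of_pos hS, div_le_one hS]
  refine (Finset.abs_sum_le_sum_abs _ _).trans (Finset.sum_le_sum fun x _ => ?_)
  have h1 : |A x k| = 1 := by rcases sq_eq_one_iff.1 (hA x k) with h | h <;> simp [h]
  rw [abs_mul, abs_of_pos (mul_pos (hW x) (exp_pos _)), h1, mul_one]

theorem wavg_sq_le {W : X → ℝ} (hW : ∀ x, 0 < W x) (hA : ∀ x k, A x k ^ 2 = 1) (c g : κ → ℝ)
    (k : κ) : wavg W A c g k ^ 2 ≤ 1 :=
  (sq_le_one_iff_abs_le_one _).2 (abs_wavg_le hW hA c g k)

theorem integrable_wpress {W : X → ℝ} (hW : ∀ x, 0 < W x) (hA : ∀ x k, A x k ^ 2 = 1) (c : κ → ℝ) :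
    Integrable (fun g => wpress W A c g) (stdPi κ) :=
  Integrable.mono' ((integrable_const |log (∑ x, W x)|).add
      ((integrable_finsetSum Finset.univ fun k _ => (P150.integrable_coord k).abs.const_mul |c k|).const_mul
        (Fintype.card X : ℝ)))
    (measurable_wpress W A c).aestronglyMeasurable (Eventually.of_forall fun g => by
      rw [Real.norm_eq_abs]
      refine (abs_lse_le hW _).trans (add_le_add_right ((Finset.sum_le_sum fun x _ =>
        abs_expo_le hA c g x).trans (le_of_eq ?_)) _)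
      simp)

theorem hasDerivAt_wavg [DecidableEq κ] {W : X → ℝ} (hW : ∀ x, 0 < W x) (hA : ∀ x k, A x k ^ 2 = 1)
    (c g : κ → ℝ) (k : κ) (y : ℝ) :
    HasDerivAt (fun y => wavg W A c (Function.update g k y) k)
      (c k * (1 - wavg W A c (Function.update g k y) k ^ 2)) y := by
  have hS := (lse_pos_aux hW (expo A c (Function.update g k y))).ne'
  simp only [wavg, expo_update] at hS ⊢
  have he : ∀ x, HasDerivAt
      (fun y => W x * exp (c k * y * A x k + ∑ j ∈ Finset.univ.erase k, c j * g j * A x j))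
      (W x * exp (c k * y * A x k + ∑ j ∈ Finset.univ.erase k, c j * g j * A x j) * (c k * A x k)) y :=
    fun x => by
      refine (((((hasDerivAt_id y).const_mul (c k)).mul_const (A x k)).add_const _).exp.const_mul
        (W x)).congr_deriv ?_
      simp only [id]; ring
  refine ((HasDerivAt.fun_sum fun x _ => (he x).mul_const (A x k)).div
    (HasDerivAt.fun_sum fun x _ => he x) hS).congr_deriv ?_
  symm
  set w := fun x => W x * exp (c k * y * A x k + ∑ j ∈ Finset.univ.erase k, c j * g j * A x j)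
  have e1 : ∑ x, w x * (c k * A x k) * A x k = c k * ∑ x, w x := by
    rw [Finset.mul_sum]; refine Finset.sum_congr rfl fun x _ => ?_
    linear_combination (w x * c k) * hA x k
  have e2 : ∑ x, w x * (c k * A x k) = c k * ∑ x, w x * A x k := by
    rw [Finset.mul_sum]; exact Finset.sum_congr rfl fun x _ => by ring
  change c k * (1 - ((∑ x, w x * A x k) / ∑ x, w x) ^ 2)
    = ((∑ x, w x * (c k * A x k) * A x k) * ∑ x, w x
      - (∑ x, w x * A x k) * ∑ x, w x * (c k * A x k)) / (∑ x, w x) ^ 2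
  rw [e1, e2]
  field_simp

theorem mean_coord_mul_wavg {W : X → ℝ} (hW : ∀ x, 0 < W x) (hA : ∀ x k, A x k ^ 2 = 1) (c : κ → ℝ)
    (k : κ) :
    ∫ g, g k * wavg W A c g k ∂stdPi κ = c k * (1 - ∫ g, wavg W A c g k ^ 2 ∂stdPi κ) := by
  classical
  rw [P150.gauss_ibp k (φ' := fun g => c k * (1 - wavg W A c g k ^ 2)) (B := 1) (B' := |c k|)
    (measurable_wavg W A c k) ((measurable_wavg W A c k).pow_const 2 |>.const_sub 1 |>.const_mul _)
    (fun g => abs_wavg_le hW hA c g k)
    (fun g => by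
      rw [abs_mul]
      refine mul_le_of_le_one_right (abs_nonneg _) ?_
      rw [abs_of_nonneg (sub_nonneg.2 (wavg_sq_le hW hA c g k))]
      linarith [sq_nonneg (wavg W A c g k)])
    (hasDerivAt_wavg hW hA c · k), integral_const_mul, integral_sub (integrable_const _), integral_const]
  · simp
  · exact Integrable.of_bound ((measurable_wavg W A c k).pow_const 2).aestronglyMeasurable 1
      (Eventually.of_forall fun g => by
        rw [Real.norm_of_nonneg (sq_nonneg _)]; exact wavg_sq_le hW hA c g k)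

theorem hasDerivAt_mean_wpress {W : X → ℝ} (hW : ∀ x, 0 < W x) (hA : ∀ x k, A x k ^ 2 = 1)
    {c c' : ℝ → κ → ℝ} (hc : ∀ θ k, HasDerivAt (c · k) (c' θ k) θ) {B : ℝ}
    (hB : ∀ θ k, |c' θ k| ≤ B) (θ : ℝ) :
    HasDerivAt (fun s => ∫ g, wpress W A (c s) g ∂stdPi κ)
      (∑ k, c' θ k * c θ k * (1 - ∫ g, wavg W A (c θ) g k ^ 2 ∂stdPi κ)) θ := by
  have hd : ∀ g : κ → ℝ, ∀ s, HasDerivAt (fun s => wpress W A (c s) g)
      (∑ k, c' s k * (g k * wavg W A (c s) g k)) s := fun g s => by
    have he : ∀ x, HasDerivAt (fun s => W x * exp (expo A (c s) g x))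
        (W x * exp (expo A (c s) g x) * ∑ k, c' s k * g k * A x k) s := fun x =>
      ((HasDerivAt.fun_sum fun k _ => ((hc s k).mul_const (g k)).mul_const (A x k)).exp.const_mul
        (W x)).congr_deriv (by rw [mul_assoc]; rfl)
    refine ((HasDerivAt.fun_sum fun x _ => he x).log (lse_pos_aux hW _).ne').congr_deriv ?_
    symm
    simp_rw [wavg, Finset.mul_sum]
    rw [Finset.sum_comm, Finset.sum_div]
    refine Finset.sum_congr rfl fun k _ => ?_
    rw [mul_div_assoc', mul_div_assoc', Finset.mul_sum, Finset.mul_sum]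
    congr 1
    exact Finset.sum_congr rfl fun x _ => by ring
  have hF := hasDerivAt_integral_of_dominated_loc_of_deriv_le (μ := stdPi κ) (s := Set.univ)
    (F := fun s g => wpress W A (c s) g) (F' := fun s g => ∑ k, c' s k * (g k * wavg W A (c s) g k))
    (bound := fun g => ∑ k, B * |g k|) (x₀ := θ) Filter.univ_mem
    (Eventually.of_forall fun s => (measurable_wpress W A (c s)).aestronglyMeasurable)
    (integrable_wpress hW hA _)
    (Measurable.aestronglyMeasurable (Finset.measurable_sum _ fun k _ =>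
      ((measurable_pi_apply k).mul (measurable_wavg W A (c θ) k)).const_mul _))
    (Eventually.of_forall fun g s _ => by
      refine (Finset.abs_sum_le_sum_abs _ _).trans (Finset.sum_le_sum fun k _ => ?_)
      rw [abs_mul, abs_mul]
      calc |c' s k| * (|g k| * |wavg W A (c s) g k|) ≤ B * (|g k| * 1) := by
            gcongr
            · exact (abs_nonneg _).trans (hB s k)
            · exact hB s k
            · exact abs_wavg_le hW hA _ _ _
        _ = B * |g k| := by ring)
    (integrable_finsetSum _ fun k _ => (P150.integrable_coord k).abs.const_mul B)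
    (Eventually.of_forall fun g s _ => hd g s)
  refine hF.2.congr_deriv ?_
  rw [integral_finsetSum _ fun k _ => ((P150.integrable_coord k).mul_bdd
      (measurable_wavg W A _ k).aestronglyMeasurable
      (Eventually.of_forall fun g => abs_wavg_le hW hA (c θ) g k)).const_mul _]
  refine Finset.sum_congr rfl fun k _ => ?_
  rw [integral_const_mul, mean_coord_mul_wavg hW hA]
  ring

omit [Nonempty X] in
theorem integral_wpress_comp {α γ : Type} [Fintype α] [Fintype γ] {f : (γ → ℝ) → α → ℝ}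
    (hf : MeasurePreserving f (stdPi γ) (stdPi α)) (W : X → ℝ) (A : X → α → ℝ) (c : α → ℝ) :
    ∫ g, wpress W A c (f g) ∂stdPi γ = ∫ g, wpress W A c g ∂stdPi α := by
  rw [← hf.map_eq, integral_map hf.measurable.aemeasurable (measurable_wpress _ _ _).aestronglyMeasurable]

/-- The couplings of the two blocks, read on the joint cube. -/
noncomputable def splitA (a b : ℕ) (x : Fin (a + b) → Bool) : Edge a ⊕ Edge b → ℝ :=
  Sum.elim (pairA a fun i => x (Fin.castAdd b i)) (pairA b fun i => x (Fin.natAdd a i))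

/-- The coupling constants of the two blocks. -/
noncomputable def splitC (β : ℝ) (a b : ℕ) : Edge a ⊕ Edge b → ℝ :=
  Sum.elim (fun _ => β / √(a : ℝ)) fun _ => β / √(b : ℝ)

/-- Both families of couplings on the joint cube. -/
noncomputable def pathA (a b : ℕ) (x : Fin (a + b) → Bool) : (Edge a ⊕ Edge b) ⊕ Edge (a + b) → ℝ :=
  Sum.elim (splitA a b x) (pairA (a + b) x)

/-- The interpolated coupling constants. -/
noncomputable def pathC (β : ℝ) (a b : ℕ) (θ : ℝ) : (Edge a ⊕ Edge b) ⊕ Edge (a + b) → ℝ :=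
  Sum.elim (Sum.elim (fun _ => β / √(a : ℝ) * cos θ) fun _ => β / √(b : ℝ) * cos θ)
    fun _ => β / √((a + b : ℕ) : ℝ) * sin θ

/-- The derivative of the interpolated coupling constants. -/
noncomputable def pathD (β : ℝ) (a b : ℕ) (θ : ℝ) : (Edge a ⊕ Edge b) ⊕ Edge (a + b) → ℝ :=
  Sum.elim (Sum.elim (fun _ => -(β / √(a : ℝ) * sin θ)) fun _ => -(β / √(b : ℝ) * sin θ))
    fun _ => β / √((a + b : ℕ) : ℝ) * cos θ

theorem pathA_sq (a b : ℕ) (x : Fin (a + b) → Bool) (k : (Edge a ⊕ Edge b) ⊕ Edge (a + b)) :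
    pathA a b x k ^ 2 = 1 := by
  rcases k with (e | e) | e
  · exact pairA_sq a (fun i => x (Fin.castAdd b i)) e
  · exact pairA_sq b (fun i => x (Fin.natAdd a i)) e
  · exact pairA_sq (a + b) x e

theorem hasDerivAt_pathC (β : ℝ) (a b : ℕ) (θ : ℝ) (k : (Edge a ⊕ Edge b) ⊕ Edge (a + b)) :
    HasDerivAt (pathC β a b · k) (pathD β a b θ k) θ := by
  rcases k with (e | e) | e
  · exact ((hasDerivAt_cos θ).const_mul (β / √(a : ℝ))).congr_deriv (mul_neg _ _)
  · exact ((hasDerivAt_cos θ).const_mul (β / √(b : ℝ))).congr_deriv (mul_neg _ _)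
  · exact (hasDerivAt_sin θ).const_mul (β / √((a + b : ℕ) : ℝ))

theorem abs_pathD_le (β : ℝ) (a b : ℕ) (θ : ℝ) (k : (Edge a ⊕ Edge b) ⊕ Edge (a + b)) :
    |pathD β a b θ k| ≤ |β / √(a : ℝ)| + |β / √(b : ℝ)| + |β / √((a + b : ℕ) : ℝ)| := by
  have l : ∀ u v : ℝ, |v| ≤ 1 → |u * v| ≤ |u| := fun u v h => by
    rw [abs_mul]; exact mul_le_of_le_one_right (abs_nonneg _) h
  have h1 := abs_nonneg (β / √(a : ℝ))
  have h2 := abs_nonneg (β / √(b : ℝ))
  have h3 := abs_nonneg (β / √((a + b : ℕ) : ℝ))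
  rcases k with (e | e) | e <;> simp only [pathD, Sum.elim_inl, Sum.elim_inr, abs_neg]
  · linarith [l (β / √(a : ℝ)) _ (abs_sin_le_one θ)]
  · linarith [l (β / √(b : ℝ)) _ (abs_sin_le_one θ)]
  · linarith [l (β / √((a + b : ℕ) : ℝ)) _ (abs_cos_le_one θ)]

/-- The derivative along the interpolation is nonnegative for every Gibbs law. -/
theorem path_pointwise (β : ℝ) {a b : ℕ} (ha : 0 < a) (hb : 0 < b) {θ : ℝ} (hs : 0 ≤ sin θ)
    (hco : 0 ≤ cos θ) (w : (Fin (a + b) → Bool) → ℝ) (hw : ∀ x, 0 ≤ w x) (h1 : ∑ x, w x = 1) :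
    0 ≤ ∑ k, pathD β a b θ k * pathC β a b θ k * (1 - (∑ x, w x * pathA a b x k) ^ 2) := by
  have hp := interp_pointwise ha hb w hw h1
  simp only [Fintype.sum_sum_type, pathA, splitA, pathC, pathD, Sum.elim_inl, Sum.elim_inr,
    ← Finset.mul_sum]
  have key := mul_le_mul_of_nonneg_left hp (show 0 ≤ β ^ 2 * (sin θ * cos θ) by positivity)
  have hk : ∀ m : ℕ, ∀ u v : ℝ, β / √m * u * (β / √m * v) = β ^ 2 * (u * v) / m := fun m u v => by
    rw [mul_mul_mul_comm, div_mul_div_comm, mul_self_sqrt m.cast_nonneg]; ring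
  simp only [neg_mul, hk]
  rw [← sub_nonneg] at key
  refine key.trans (le_of_eq ?_)
  ring

theorem path_deriv_nonneg (β : ℝ) {a b : ℕ} (ha : 0 < a) (hb : 0 < b) {θ : ℝ} (hs : 0 ≤ sin θ)
    (hco : 0 ≤ cos θ) {W : (Fin (a + b) → Bool) → ℝ} (hW : ∀ x, 0 < W x) :
    0 ≤ ∑ k, pathD β a b θ k * pathC β a b θ k
      * (1 - ∫ g, wavg W (pathA a b) (pathC β a b θ) g k ^ 2 ∂stdPi ((Edge a ⊕ Edge b) ⊕ Edge (a + b))) := by
  set A := pathA a b
  set c := pathC β a b θ
  set d := pathD β a b θ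
  have hA : ∀ x k, A x k ^ 2 = 1 := pathA_sq a b
  have hi : ∀ k, Integrable (fun g => wavg W A c g k ^ 2) (stdPi ((Edge a ⊕ Edge b) ⊕ Edge (a + b))) :=
    fun k => Integrable.of_bound ((measurable_wavg W A _ k).pow_const 2).aestronglyMeasurable 1
      (Eventually.of_forall fun g => by rw [Real.norm_of_nonneg (sq_nonneg _)]; exact wavg_sq_le hW hA _ g k)
  have e : ∀ k, d k * c k * (1 - ∫ g, wavg W A c g k ^ 2 ∂stdPi ((Edge a ⊕ Edge b) ⊕ Edge (a + b)))
      = ∫ g, d k * c k * (1 - wavg W A c g k ^ 2) ∂stdPi ((Edge a ⊕ Edge b) ⊕ Edge (a + b)) := fun k => by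
    rw [integral_const_mul, integral_sub (integrable_const _) (hi k)]; simp
  simp_rw [e]
  rw [← integral_finsetSum _ fun k _ => ((integrable_const _).sub' (hi k)).const_mul _]
  refine integral_nonneg fun g => ?_
  have hS := lse_pos_aux hW (expo A c g)
  set w : (Fin (a + b) → Bool) → ℝ := fun x => W x * exp (expo A c g x) / ∑ y, W y * exp (expo A c g y)
    with hw_def
  have avg_eq : ∀ k, wavg W A c g k = ∑ x, w x * A x k := fun k => by
    rw [wavg, Finset.sum_div]; exact Finset.sum_congr rfl fun x _ => by simp only [hw_def]; ring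
  simp only [Pi.zero_apply, avg_eq]
  exact path_pointwise β ha hb hs hco w (fun x => div_nonneg (mul_pos (hW x) (exp_pos _)).le hS.le)
    (by rw [← Finset.sum_div, div_self hS.ne'])

/-- The coupled cube dominates the two separate blocks, over arbitrary weights. -/
theorem weighted_superadd (β : ℝ) {a b : ℕ} (ha : 0 < a) (hb : 0 < b)
    {W : (Fin (a + b) → Bool) → ℝ} (hW : ∀ x, 0 < W x) :
    ∫ g, wpress W (splitA a b) (splitC β a b) g ∂stdPi (Edge a ⊕ Edge b)
      ≤ ∫ g, wpress W (pairA (a + b)) (fun _ => β / √((a + b : ℕ) : ℝ)) g ∂stdPi (Edge (a + b)) := by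
  set ψ := fun θ => ∫ g, wpress W (pathA a b) (pathC β a b θ) g
    ∂stdPi ((Edge a ⊕ Edge b) ⊕ Edge (a + b)) with hψ_def
  have hψ := fun θ => hasDerivAt_mean_wpress hW (pathA_sq a b) (hasDerivAt_pathC β a b)
    (abs_pathD_le β a b) θ
  have hmono : MonotoneOn ψ (Set.Icc 0 (π / 2)) := by
    refine monotoneOn_of_deriv_nonneg (convex_Icc _ _) (fun z _ => (hψ z).continuousAt.continuousWithinAt)
      (fun z _ => (hψ z).differentiableAt.differentiableWithinAt) fun z hz => ?_
    rw [(hψ z).deriv]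
    rw [interior_Icc] at hz
    exact path_deriv_nonneg β ha hb (sin_nonneg_of_nonneg_of_le_pi hz.1.le (by linarith [hz.2, pi_pos]))
      (cos_nonneg_of_mem_Icc ⟨by linarith [hz.1, pi_pos], hz.2.le⟩) hW
  have key := hmono (Set.left_mem_Icc.2 (by positivity)) (Set.right_mem_Icc.2 (by positivity)) (by positivity)
  have hend : ψ (π / 2) = ∫ g, wpress W (pairA (a + b)) (fun _ => β / √((a + b : ℕ) : ℝ)) g
      ∂stdPi (Edge (a + b)) := by
    rw [← integral_wpress_comp (measurePreserving_right (α := Edge a ⊕ Edge b) (γ := Edge (a + b)))]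
    refine integral_congr_ae (Eventually.of_forall fun g => ?_)
    simp [wpress, lse, expo, pathA, pathC, Fintype.sum_sum_type]
  have hstart : ψ 0 = ∫ g, wpress W (splitA a b) (splitC β a b) g ∂stdPi (Edge a ⊕ Edge b) := by
    rw [← integral_wpress_comp (measurePreserving_left (α := Edge a ⊕ Edge b) (γ := Edge (a + b)))]
    refine integral_congr_ae (Eventually.of_forall fun g => ?_)
    simp [wpress, lse, expo, pathA, pathC, splitC, Fintype.sum_sum_type]
  linarith

end Vale.Agent.P166.Wide
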