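import Vale.Agent.P166.Wide.Class
import Vale.Agent.P166.Wide.Sk

/-!
# P166: exchanging the two disorders, and separate blocks
-/

open MeasureTheory ProbabilityTheory Real Filter Topology

namespace Vale.Agent.P166.Wide

open Vale.Agent.P157 Vale.Agent.P150

variable {ι κ X B : Type} [Fintype ι] [Fintype κ] [Fintype X] [Nonempty X] [Fintype B]

/-- The log partition function is integrable in both disorders together. -/
theorem joint_integrable {f : B → ℝ → ℝ} {v : B → X → ι → ℝ} (h : Good f v) {P : X → ℝ}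
    (hP : ∀ x, 0 < P x) {A : X → κ → ℝ} (hA : ∀ x k, A x k ^ 2 = 1) (c : κ → ℝ) :
    Integrable (fun z : (κ → ℝ) × (B → ι → ℝ) => lse P (expo A c z.1 + energy f v z.2))
      ((stdPi κ).prod (Measure.pi fun _ : B => gauss ι)) := by
  set ν := Measure.pi fun _ : B => gauss ι with hν
  let F : (κ → ℝ) → (B → ι → ℝ) → ℝ := fun g G => lse P (expo A c g + energy f v G)
  have hm : Measurable (Function.uncurry F) := by
    have he : ∀ x, Measurable fun z : (κ → ℝ) × (B → ι → ℝ) => expo A c z.1 x := fun x => by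
      unfold expo; fun_prop
    have hG : ∀ x, Measurable fun z : (κ → ℝ) × (B → ι → ℝ) => energy f v z.2 x := fun x =>
      Finset.measurable_sum _ fun a _ => (h a).1.measurable.comp ((measurable_dot_left (v a x)).comp
        ((measurable_pi_apply a).comp measurable_snd))
    exact (Finset.measurable_sum _ fun x _ => ((he x).add (hG x)).exp.const_mul _).log
  show Integrable (Function.uncurry F) ((stdPi κ).prod ν)
  refine Integrable.mono' (g := fun z => |log (∑ x, P x)|
      + (Fintype.card X : ℝ) * (∑ k, |c k| * |z.1 k|) + ∑ x, ∑ a, wt (dot (z.2 a) (v a x))) ?_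
    hm.aestronglyMeasurable (Eventually.of_forall fun z => ?_)
  · exact ((integrable_const _).add (((integrable_finsetSum Finset.univ fun k _ =>
      (P150.integrable_coord k).abs.const_mul |c k|).const_mul (Fintype.card X : ℝ)).comp_fst ν)).add
      ((energy_majorant_integrable h).comp_snd (stdPi κ))
  · rw [Real.norm_eq_abs]
    refine (abs_lse_le hP _).trans ?_
    rw [add_assoc]
    refine add_le_add_right ?_ _
    refine (Finset.sum_le_sum fun x _ => abs_add_le (expo A c z.1 x) (energy f v z.2 x)).trans ?_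
    rw [Finset.sum_add_distrib]
    refine add_le_add ((Finset.sum_le_sum fun x _ => abs_expo_le hA c z.1 x).trans (le_of_eq ?_))
      (sum_abs_energy_le h z.2)
    simp

/-- The two disorders may be averaged in either order. -/
theorem swap_disorder {f : B → ℝ → ℝ} {v : B → X → ι → ℝ} (h : Good f v) {P : X → ℝ}
    (hP : ∀ x, 0 < P x) {A : X → κ → ℝ} (hA : ∀ x k, A x k ^ 2 = 1) (c : κ → ℝ) :
    Integrable (fun g => fam f v (fun x => P x * exp (expo A c g x))) (stdPi κ) ∧
    Integrable (fun G => ∫ g, wpress (fun x => P x * exp (energy f v G x)) A c g ∂stdPi κ)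
      (Measure.pi fun _ : B => gauss ι) ∧
    ∫ g, fam f v (fun x => P x * exp (expo A c g x)) ∂stdPi κ
      = ∫ G, (∫ g, wpress (fun x => P x * exp (energy f v G x)) A c g ∂stdPi κ)
          ∂(Measure.pi fun _ : B => gauss ι) := by
  have hi := joint_integrable h hP hA c
  set ν := Measure.pi fun _ : B => gauss ι with hν
  let F : (κ → ℝ) → (B → ι → ℝ) → ℝ := fun g G => lse P (expo A c g + energy f v G)
  replace hi : Integrable (Function.uncurry F) ((stdPi κ).prod ν) := hi
  have e1 : ∀ g, fam f v (fun x => P x * exp (expo A c g x)) = ∫ G, F g G ∂ν := fun g => by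
    simp only [fam, lse_shift, F, hν]
  have e2 : ∀ G, ∫ g, wpress (fun x => P x * exp (energy f v G x)) A c g ∂stdPi κ
      = ∫ g, F g G ∂stdPi κ := fun G => by
    refine integral_congr_ae (Eventually.of_forall fun g => ?_)
    simp only [wpress, lse_shift, F, add_comm]
  simp only [e1, e2]
  exact ⟨hi.integral_prod_left, hi.integral_prod_right, integral_integral_swap hi⟩

omit [Nonempty X] in
theorem fam_coord {ι' : Type} [Fintype ι'] (e : ι' ≃ ι) {f : B → ℝ → ℝ} {v : B → X → ι → ℝ}
    (h : Good f v) (w : X → ℝ) : fam f (fun b x i => v b x (e i)) w = fam f v w := by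
  have hp : MeasurePreserving
      (fun G : B → ι' → ℝ => fun a => MeasurableEquiv.piCongrLeft (fun _ => ℝ) e (G a))
      (Measure.pi fun _ => gauss ι') (Measure.pi fun _ => gauss ι) :=
    measurePreserving_pi _ _ fun _ =>
      measurePreserving_piCongrLeft (α := fun _ => ℝ) (fun _ : ι => gaussianReal 0 1) e
  rw [fam, fam, ← integral_of_preserving hp (measurable_lse_energy h w)]
  refine integral_congr_ae (ae_of_all _ fun G => ?_)
  simp only
  congr 1
  funext x
  refine Finset.sum_congr rfl fun a _ => ?_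
  congr 1
  unfold dot
  rw [← e.sum_comp fun k => MeasurableEquiv.piCongrLeft (fun _ => ℝ) e (G a) k * v a x k]
  refine Finset.sum_congr rfl fun i _ => ?_
  rw [MeasurableEquiv.coe_piCongrLeft, Equiv.piCongrLeft_apply_apply]

/-- The field of the first block inside the joint cube. -/
noncomputable def vL (a b : ℕ) (x : Fin (a + b) → Bool) : Fin a ⊕ Fin b → ℝ :=
  Sum.elim (cubeField a fun i => x (Fin.castAdd b i)) 0

/-- The field of the second block inside the joint cube. -/
noncomputable def vR (a b : ℕ) (x : Fin (a + b) → Bool) : Fin a ⊕ Fin b → ℝ :=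
  Sum.elim 0 (cubeField b fun i => x (Fin.natAdd a i))

/-- Constraints that act on separate blocks give separate pressures. -/
theorem fam_factor {C₁ C₂ : Type} [Fintype C₁] [Fintype C₂] {a b : ℕ}
    {f₁ : C₁ → ℝ → ℝ} {f₂ : C₂ → ℝ → ℝ}
    (h₁ : Good f₁ (fun _ : C₁ => cubeField a)) (h₂ : Good f₂ (fun _ : C₂ => cubeField b))
    {P₁ : (Fin a → Bool) → ℝ} {P₂ : (Fin b → Bool) → ℝ} (hP₁ : ∀ x, 0 < P₁ x) (hP₂ : ∀ x, 0 < P₂ x) :
    fam (Sum.elim f₁ f₂) (Sum.elim (fun _ : C₁ => vL a b) fun _ : C₂ => vR a b)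
        (fun x => P₁ (fun i => x (Fin.castAdd b i)) * P₂ (fun i => x (Fin.natAdd a i)))
      = fam f₁ (fun _ => cubeField a) P₁ + fam f₂ (fun _ => cubeField b) P₂ := by
  have m₁ : MeasurePreserving (fun g : Fin a ⊕ Fin b → ℝ => fun i => g (.inl i))
      (gauss (Fin a ⊕ Fin b)) (gauss (Fin a)) :=
    (fst_preserving (gauss (Fin a)) (gauss (Fin b))).comp
      (measurePreserving_sumPiEquivProdPi (fun _ : Fin a ⊕ Fin b => gaussianReal 0 1))
  have m₂ : MeasurePreserving (fun g : Fin a ⊕ Fin b → ℝ => fun i => g (.inr i))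
      (gauss (Fin a ⊕ Fin b)) (gauss (Fin b)) :=
    (snd_preserving (gauss (Fin a)) (gauss (Fin b))).comp
      (measurePreserving_sumPiEquivProdPi (fun _ : Fin a ⊕ Fin b => gaussianReal 0 1))
  have M₁ : MeasurePreserving
      (fun G : C₁ ⊕ C₂ → (Fin a ⊕ Fin b) → ℝ => fun (c : C₁) (i : Fin a) => G (.inl c) (.inl i))
      (Measure.pi fun _ => gauss (Fin a ⊕ Fin b)) (Measure.pi fun _ : C₁ => gauss (Fin a)) :=
    ((measurePreserving_pi (fun _ : C₁ => gauss (Fin a ⊕ Fin b)) (fun _ => gauss (Fin a)) (fun _ => m₁)).comp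
      (fst_preserving _ (Measure.pi fun _ : C₂ => gauss (Fin a ⊕ Fin b)))).comp
      (measurePreserving_sumPiEquivProdPi (fun _ : C₁ ⊕ C₂ => gauss (Fin a ⊕ Fin b)))
  have M₂ : MeasurePreserving
      (fun G : C₁ ⊕ C₂ → (Fin a ⊕ Fin b) → ℝ => fun (c : C₂) (i : Fin b) => G (.inr c) (.inr i))
      (Measure.pi fun _ => gauss (Fin a ⊕ Fin b)) (Measure.pi fun _ : C₂ => gauss (Fin b)) :=
    ((measurePreserving_pi (fun _ : C₂ => gauss (Fin a ⊕ Fin b)) (fun _ => gauss (Fin b)) (fun _ => m₂)).comp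
      (snd_preserving (Measure.pi fun _ : C₁ => gauss (Fin a ⊕ Fin b)) _)).comp
      (measurePreserving_sumPiEquivProdPi (fun _ : C₁ ⊕ C₂ => gauss (Fin a ⊕ Fin b)))
  have hpt : ∀ G : C₁ ⊕ C₂ → (Fin a ⊕ Fin b) → ℝ,
      lse (fun x => P₁ (fun i => x (Fin.castAdd b i)) * P₂ (fun i => x (Fin.natAdd a i)))
        (energy (Sum.elim f₁ f₂) (Sum.elim (fun _ : C₁ => vL a b) fun _ : C₂ => vR a b) G)
      = lse P₁ (energy f₁ (fun _ => cubeField a) fun c i => G (.inl c) (.inl i))
        + lse P₂ (energy f₂ (fun _ => cubeField b) fun c i => G (.inr c) (.inr i)) := by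
    intro G
    unfold lse
    rw [← log_mul (lse_pos_aux hP₁ _).ne' (lse_pos_aux hP₂ _).ne', Finset.sum_mul_sum]
    congr 1
    rw [← (Fin.appendEquiv a b).sum_comp, Fintype.sum_prod_type]
    refine Finset.sum_congr rfl fun x _ => Finset.sum_congr rfl fun y _ => ?_
    rw [mul_mul_mul_comm, ← exp_add]
    simp [energy, dot, vL, vR, Fin.appendEquiv, Fintype.sum_sum_type]
  have hi₁ : Integrable (fun G : C₁ ⊕ C₂ → (Fin a ⊕ Fin b) → ℝ =>
      lse P₁ (energy f₁ (fun _ => cubeField a) fun c i => G (.inl c) (.inl i)))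
      (Measure.pi fun _ => gauss (Fin a ⊕ Fin b)) :=
    M₁.integrable_comp_of_integrable (fam_integrable h₁ hP₁)
  have hi₂ : Integrable (fun G : C₁ ⊕ C₂ → (Fin a ⊕ Fin b) → ℝ =>
      lse P₂ (energy f₂ (fun _ => cubeField b) fun c i => G (.inr c) (.inr i)))
      (Measure.pi fun _ => gauss (Fin a ⊕ Fin b)) :=
    M₂.integrable_comp_of_integrable (fam_integrable h₂ hP₂)
  rw [fam, fam, fam]
  simp only [hpt]
  rw [integral_add hi₁ hi₂,
    ← integral_of_preserving M₁ (measurable_lse_energy h₁ P₁),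
    ← integral_of_preserving M₂ (measurable_lse_energy h₂ P₂)]

end Vale.Agent.P166.Wide
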