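import Vale.Agent.P166.Wide.Super

/-!
# P166: the limit with a Gaussian coupling and several classes of quadratic patterns
-/

open MeasureTheory ProbabilityTheory Real Filter Topology

namespace Vale.Agent.P166.Wide

open Vale.Agent.P157 Vale.Agent.P150

variable {k : ℕ}

theorem total_bound (β : ℝ) : ∃ C, 0 ≤ C ∧ ∀ (α : Fin k → ℝ) (f : Fin k → ℝ → ℝ) (L : Fin k → ℝ),
    (∀ j, 0 ≤ α j) → (∀ j, Continuous (f j)) → (∀ j r, |f j r| ≤ L j) → (∀ j r, |f j r| ≤ wt r) →
    ∀ n : ℕ, |total β α f n| ≤ (C + ∑ j, L j * α j) * n := by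
  obtain ⟨F, hF⟩ := P150.exists_limit β
  obtain ⟨C, hC⟩ := (hF.abs).bddAbove_range
  have hC' : ∀ n : ℕ, |free n β / n| ≤ C := fun n => hC ⟨n, rfl⟩
  have hC0 : 0 ≤ C := (abs_nonneg _).trans (hC' 0)
  refine ⟨C + log 2, add_nonneg hC0 (log_nonneg (by norm_num)), ?_⟩
  intro α f L hα hfc hfb hft n
  obtain ⟨i1, _, _⟩ := swap_disorder (good_pat (α := α) hfc hft n) (unif_pos n) (pairA_sq n) (skC β n)
  have hw : ∀ g x, 0 < unif n x * exp (expo (pairA n) (skC β n) g x) := fun g x =>
    mul_pos (unif_pos n x) (exp_pos _)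
  have hL0 : ∀ j, 0 ≤ L j := fun j => (abs_nonneg _).trans (hfb j 0)
  have hE : ∀ g, |fam (fun z : Pat α n => f z.1) (fun _ => cubeField n)
      (fun x => unif n x * exp (expo (pairA n) (skC β n) g x))
        - (press (pairA n) (skC β n) g - n * log 2)| ≤ (∑ j, L j * α j) * n := by
    intro g
    set w := fun x => unif n x * exp (expo (pairA n) (skC β n) g x) with hwd
    have e0 : press (pairA n) (skC β n) g - n * log 2 = lse w 0 := by
      simp only [lse_const, hwd, unif, ← Finset.mul_sum, press]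
      rw [log_mul (by positivity) (sum_exp_pos _ _ _).ne', one_div, log_inv, log_pow]
      ring
    rw [e0, fam]
    have hc : lse w 0 = ∫ _G : Pat α n → Fin n → ℝ, lse w 0 ∂(Measure.pi fun _ => gauss (Fin n)) := by simp
    rw [hc, ← integral_sub (fam_integrable (good_pat hfc hft n) (hw g)) (integrable_const _)]
    refine ((Real.norm_eq_abs _).symm.le.trans (norm_integral_le_of_norm_le_const
      (C := (∑ j, L j * α j) * n) (ae_of_all _ fun G => ?_))).trans (by simp)
    rw [Real.norm_eq_abs]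
    refine abs_lse_sub (hw g) fun x => ?_
    rw [Pi.zero_apply, sub_zero]
    refine (Finset.abs_sum_le_sum_abs _ _).trans ((Finset.sum_le_sum fun z _ => hfb z.1 _).trans ?_)
    rw [Fintype.sum_sigma, Finset.sum_mul]
    refine Finset.sum_le_sum fun j _ => ?_
    simp only [Finset.sum_const, Finset.card_univ, Fintype.card_fin, nsmul_eq_mul]
    rw [mul_assoc, mul_comm (L j)]
    exact mul_le_mul_of_nonneg_right (Nat.floor_le (mul_nonneg (hα j) n.cast_nonneg)) (hL0 j)
  have ip := integrable_press (pairA_sq n) (skC β n)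
  have h1 : |total β α f n - (free n β - n * log 2)| ≤ (∑ j, L j * α j) * n := by
    have e : free n β - n * log 2
        = ∫ g, (press (pairA n) (skC β n) g - n * log 2) ∂stdPi (Edge n) := by
      rw [integral_sub ip (integrable_const _), free]
      simp only [integral_const, probReal_univ, one_smul]
      rfl
    rw [e, total, ← integral_sub i1 (show Integrable (fun g => press (pairA n) (skC β n) g - n * log 2)
      (stdPi (Edge n)) from ip.sub (integrable_const _))]
    exact ((Real.norm_eq_abs _).symm.le.trans (norm_integral_le_of_norm_le_const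
      (C := (∑ j, L j * α j) * n) (ae_of_all _ fun g => by rw [Real.norm_eq_abs]; exact hE g))).trans
        (by simp)
  have h2 : |free n β| ≤ C * n := by
    rcases Nat.eq_zero_or_pos n with rfl | hn
    · simp [free, press, expo]
    · have hn' : (0 : ℝ) < n := by exact_mod_cast hn
      have := hC' n
      rwa [abs_div, abs_of_pos hn', div_le_iff₀ hn'] at this
  have h3 : 0 ≤ (n : ℝ) * log 2 := mul_nonneg n.cast_nonneg (log_nonneg (by norm_num))
  have := abs_le.1 h1
  have := abs_le.1 h2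
  rw [abs_le]
  constructor <;> nlinarith

theorem cap_limit (β : ℝ) {α s : Fin k → ℝ} (hα : ∀ j, 0 ≤ α j) {c : ℝ} (hc : 0 < c)
    (hs : ∀ j, 312 * |s j| + 288 * c ≤ 1) :
    ∃ l, Tendsto (fun n : ℕ => total β α (fun j => capFun (s j) c) n / n) atTop (𝓝 l) := by
  set f := fun j => capFun (s j) c
  set L := fun j => (capPot (s j) hc).b0
  have hfc : ∀ j, Continuous (f j) := fun j => (capPot (s j) hc).continuous0
  have hfb : ∀ j r, |f j r| ≤ L j := fun j r => (capPot (s j) hc).h0 r
  have hft : ∀ j r, |f j r| ≤ wt r := fun j =>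
    energy_le (σ := |s j|) (fun r => (abs_capFun_le (s j) hc r).1)
      (by linarith [hs j, abs_nonneg (s j)])
  have hM : ∀ j, MixIneq fun r => exp (f j r) := fun j =>
    mixIneq_quad (quadLike_cap (s j) hc) (by linarith [hs j]) (by linarith)
  obtain ⟨C, hC0, hC⟩ := total_bound (k := k) β
  have hL0 : ∀ j, 0 ≤ L j := fun j => (capPot (s j) hc).b0_nonneg
  have n1 : 0 ≤ ∑ j, L j * α j := Finset.sum_nonneg fun j _ => mul_nonneg (hL0 j) (hα j)
  have n2 : 0 ≤ ∑ j, L j * (2 * √(α j + 1) + 4) :=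
    Finset.sum_nonneg fun j _ => mul_nonneg (hL0 j) (by positivity)
  refine tendsto_of_superadd (K := C + (∑ j, L j * α j) + ∑ j, L j * (2 * √(α j + 1) + 4))
    (by linarith) (fun n => (hC α f L hα hfc hfb hft n).trans ?_) fun a b ha hb => ?_
  · exact mul_le_mul_of_nonneg_right (by linarith) n.cast_nonneg
  · have := total_superadd β hα hM hfc hfb hft ha hb
    have : 0 ≤ (C + ∑ j, L j * α j) * √((a : ℝ) + b) := by positivity
    nlinarith

theorem quad_near (β : ℝ) {α s : Fin k → ℝ} (hα : ∀ j, 0 ≤ α j) (hs : ∀ j, |s j| ≤ 1 / 500) {c : ℝ}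
    (hc : 0 < c) {n : ℕ} (hn : 1 ≤ n) :
    |total β α (fun j x => s j * x ^ 2 / 2) n - total β α (fun j => capFun (s j) c) n|
      ≤ (∑ j, α j * (2 * c)) * n := by
  set q := fun (j : Fin k) (x : ℝ) => s j * x ^ 2 / 2
  set h := fun j => capFun (s j) c
  have hqb : ∀ j r, |q j r| ≤ |s j| * r ^ 2 / 2 := fun j r => by
    simp only [q]; rw [abs_div, abs_mul, abs_of_nonneg (sq_nonneg r), abs_two]
  have hqc : ∀ j, Continuous (q j) := fun j => by simp only [q]; fun_prop
  have hhc : ∀ j, Continuous (h j) := fun j => by simp only [h]; unfold capFun; fun_prop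
  have hqt : ∀ j r, |q j r| ≤ wt r := fun j => energy_le (hqb j) (by linarith [hs j])
  have hht : ∀ j r, |h j r| ≤ wt r := fun j =>
    energy_le (σ := |s j|) (fun r => (abs_capFun_le (s j) hc r).1) (by linarith [hs j])
  obtain ⟨iq, _, _⟩ := swap_disorder (good_pat (α := α) hqc hqt n) (unif_pos n) (pairA_sq n) (skC β n)
  obtain ⟨ih, _, _⟩ := swap_disorder (good_pat (α := α) hhc hht n) (unif_pos n) (pairA_sq n) (skC β n)
  have hu : ∀ x, ∑ i, cubeField n x i ^ 2 = 1 := fun x => cubeField_unit hn x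
  have key : ∀ j (w : (Fin n → Bool) → ℝ), (∀ x, 0 < w x) →
      |fam (fun _ : Fin ⌊α j * n⌋₊ => q j) (fun _ => cubeField n) w
        - fam (fun _ : Fin ⌊α j * n⌋₊ => h j) (fun _ => cubeField n) w| ≤ α j * (2 * c) * n := by
    intro j w hw
    have := swap_all (v := cubeField n) hu (hqc j) (hhc j) (hqb j)
      (fun r => (abs_capFun_le (s j) hc r).1) (by linarith [hs j]) hc.le
      (fun r => (abs_capFun_le (s j) hc r).2) ⌊α j * n⌋₊ w hw
    refine le_trans this ?_
    have := mul_le_mul_of_nonneg_right (Nat.floor_le (mul_nonneg (hα j) (Nat.cast_nonneg n)))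
      (show 0 ≤ 2 * c by linarith)
    linarith
  have hpt : ∀ w : (Fin n → Bool) → ℝ, (∀ x, 0 < w x) →
      |fam (fun z : Pat α n => q z.1) (fun _ => cubeField n) w
        - fam (fun z : Pat α n => h z.1) (fun _ => cubeField n) w| ≤ (∑ j, α j * (2 * c)) * n := by
    intro w hw
    rw [Finset.sum_mul]
    have t1 := classes_le (fun j : Fin k => Fin ⌊α j * n⌋₊) (fun j : Fin k => Fin ⌊α j * n⌋₊)
      (fun j _ => q j) (fun _ _ => cubeField n) (fun j _ => h j) (fun _ _ => cubeField n)
      (fun j => α j * (2 * c) * n) (fun j _ => ⟨hqc j, hqt j, hu⟩) (fun j _ => ⟨hhc j, hht j, hu⟩)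
      (fun j w' hw' => by linarith [abs_le.1 (key j w' hw')]) w hw
    have t2 := classes_le (fun j : Fin k => Fin ⌊α j * n⌋₊) (fun j : Fin k => Fin ⌊α j * n⌋₊)
      (fun j _ => h j) (fun _ _ => cubeField n) (fun j _ => q j) (fun _ _ => cubeField n)
      (fun j => α j * (2 * c) * n) (fun j _ => ⟨hhc j, hht j, hu⟩) (fun j _ => ⟨hqc j, hqt j, hu⟩)
      (fun j w' hw' => by linarith [abs_le.1 (key j w' hw')]) w hw
    rw [abs_le]
    constructor <;> linarith
  rw [total, total, ← integral_sub iq ih]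
  exact ((Real.norm_eq_abs _).symm.le.trans (norm_integral_le_of_norm_le_const
    (C := (∑ j, α j * (2 * c)) * n) (ae_of_all _ fun g => by
      rw [Real.norm_eq_abs]; exact hpt _ fun x => mul_pos (unif_pos n x) (exp_pos _)))).trans (by simp)

/-- The limit exists for weak quadratic classes at every load and every Gaussian coupling. -/
theorem quad_limit (β : ℝ) {α s : Fin k → ℝ} (hα : ∀ j, 0 ≤ α j) (hs : ∀ j, |s j| ≤ 1 / 500) :
    ∃ l, Tendsto (fun n : ℕ => total β α (fun j x => s j * x ^ 2 / 2) n / n) atTop (𝓝 l) := by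
  refine cauchySeq_tendsto_of_complete (Metric.cauchySeq_iff.2 fun ε hε => ?_)
  set T := ∑ j, α j
  have hT : 0 ≤ T := Finset.sum_nonneg fun j _ => hα j
  set c := min (1 / 1000 : ℝ) (ε / (8 * (T + 1)))
  have hc : 0 < c := lt_min (by norm_num) (by positivity)
  have hc1 : c ≤ 1 / 1000 := min_le_left _ _
  have hcε : ∑ j, α j * (2 * c) ≤ ε / 4 := by
    rw [← Finset.sum_mul]
    have h := mul_le_mul_of_nonneg_left (min_le_right (1 / 1000 : ℝ) (ε / (8 * (T + 1))))
      (show 0 ≤ 2 * (T + 1) by linarith)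
    rw [show 2 * (T + 1) * (ε / (8 * (T + 1))) = ε / 4 by field_simp; ring] at h
    nlinarith
  have near : ∀ n : ℕ, 1 ≤ n → |total β α (fun j x => s j * x ^ 2 / 2) n / n
      - total β α (fun j => capFun (s j) c) n / n| ≤ ε / 4 := fun n hn => by
    have hn' : (0 : ℝ) < n := by exact_mod_cast hn
    rw [← sub_div, abs_div, abs_of_pos hn', div_le_iff₀ hn']
    exact (quad_near β hα hs hc hn).trans (mul_le_mul_of_nonneg_right hcε hn'.le)
  obtain ⟨l, hl⟩ := cap_limit β (s := s) hα hc fun j => by linarith [hs j]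
  obtain ⟨N₀, h₀⟩ := Metric.tendsto_atTop.1 hl (ε / 5) (by linarith)
  refine ⟨max N₀ 1, fun m hm n hn => ?_⟩
  have a1 := abs_le.1 (near m (le_of_max_le_right hm))
  have a2 := abs_le.1 (near n (le_of_max_le_right hn))
  have b1 := abs_lt.1 (Real.dist_eq _ l ▸ h₀ m (le_of_max_le_left hm))
  have b2 := abs_lt.1 (Real.dist_eq _ l ▸ h₀ n (le_of_max_le_left hn))
  rw [Real.dist_eq, abs_lt]
  constructor <;> linarith

end Vale.Agent.P166.Wide
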