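import Vale.Agent.P166.Wide.Translate

/-!
# P166: the quadratic form of a GOE plus Wishart coupling
-/

open MeasureTheory ProbabilityTheory Real Filter Topology

namespace Vale.Agent.P166.Wide

open Vale.Agent.P157 Vale.Agent.P150

/-- The quadratic form of a symmetric array, split into pairs and diagonal. -/
theorem quad_split {N : ℕ} (σ : Fin N → Bool) (M : Fin N → Fin N → ℝ) (hM : ∀ i j, M i j = M j i) :
    ∑ i, ∑ j, spin (σ i) * M i j * spin (σ j)
      = 2 * ∑ e : Edge N, M e.1.1 e.1.2 * pairA N σ e + ∑ i, M i i := by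
  have h := sum_edge (fun i j => spin (σ i) * M i j * spin (σ j)) fun i j => by rw [hM i j]; ring
  have hd : ∀ i, spin (σ i) * M i i * spin (σ i) = M i i := fun i => by
    linear_combination (M i i) * spin_mul_self (σ i)
  have he : ∀ e : Edge N, spin (σ e.1.1) * M e.1.1 e.1.2 * spin (σ e.1.2) = M e.1.1 e.1.2 * pairA N σ e :=
    fun e => by rw [pairA]; ring
  simp only [hd, he] at h
  linarith

/-- One rank-one pattern. -/
theorem quad_pattern {N : ℕ} (σ : Fin N → Bool) (g : Fin N → ℝ) :
    (∑ i, ∑ j, spin (σ i) * (g i * g j) * spin (σ j)) / N = dot g (cubeField N σ) ^ 2 := by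
  have e : dot g (cubeField N σ) = (∑ i, spin (σ i) * g i) / √(N : ℝ) := by
    rw [dot, Finset.sum_div]
    refine Finset.sum_congr rfl fun i _ => ?_
    rw [cubeField, spin]; ring
  rw [e, div_pow, Real.sq_sqrt N.cast_nonneg, sq, Finset.sum_mul_sum]
  congr 1
  exact Finset.sum_congr rfl fun i _ => Finset.sum_congr rfl fun j _ => by ring

/-- The energy of the whole coupling. -/
theorem form_eq {N : ℕ} {C : Type} [Fintype C] (hN : 1 ≤ N) (β s a : ℝ) (w : C → ℝ)
    (T : Fin N → Fin N → ℝ) (A : Fin N × Fin N → ℝ) (G : C → Fin N → ℝ)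
    (hoff : ∀ e : Edge N, T e.1.1 e.1.2 = A e.1 / √(N : ℝ)) (hdiag : ∀ i, T i i = √2 * A (i, i) / √(N : ℝ))
    (hsym : ∀ i j, T i j = T j i) (σ : Fin N → Bool) :
    β / 2 * ∑ i, ∑ j, spin (σ i)
        * (s * T i j + (if i = j then a else 0) + (∑ z, w z * (G z i * G z j)) / N) * spin (σ j)
      = expo (pairA N) (skC (β * s) N) (toEdge N A) σ
        + energy (fun z : C => fun x => β * w z * x ^ 2 / 2) (fun _ => cubeField N) G σ
        + diagPart (β * s / 2) (β * a / 2) N A := by
  have hN0 : (N : ℝ) ≠ 0 := by exact_mod_cast (by omega : N ≠ 0)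
  have h1 : ∑ i, ∑ j, spin (σ i)
        * (s * T i j + (if i = j then a else 0) + (∑ z, w z * (G z i * G z j)) / N) * spin (σ j)
      = s * (∑ i, ∑ j, spin (σ i) * T i j * spin (σ j))
        + (∑ i, ∑ j, spin (σ i) * (if i = j then a else 0) * spin (σ j))
        + ∑ z, w z * ((∑ i, ∑ j, spin (σ i) * (G z i * G z j) * spin (σ j)) / N) := by
    simp only [mul_add, add_mul, Finset.sum_add_distrib]
    congr 1
    · congr 1
      simp only [Finset.mul_sum]
      exact Finset.sum_congr rfl fun i _ => Finset.sum_congr rfl fun j _ => by ring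
    · simp only [Finset.sum_div, Finset.mul_sum, Finset.sum_mul]
      rw [Finset.sum_comm (γ := C)]
      refine Finset.sum_congr rfl fun i _ => ?_
      rw [Finset.sum_comm (γ := C)]
      exact Finset.sum_congr rfl fun j _ => Finset.sum_congr rfl fun z _ => by ring
  have h2 : ∑ i, ∑ j, spin (σ i) * (if i = j then a else 0) * spin (σ j) = a * N := by
    simp [ite_mul, Finset.sum_ite_eq, mul_assoc, spin_mul_self, mul_comm]
  have h3 : ∑ i, ∑ j, spin (σ i) * T i j * spin (σ j)
      = 2 * ∑ e : Edge N, A e.1 / √(N : ℝ) * pairA N σ e + ∑ i, √2 * A (i, i) / √(N : ℝ) := by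
    rw [quad_split σ T hsym]
    simp only [hoff, hdiag]
  rw [h1, h2, h3]
  simp only [quad_pattern, expo, skC, toEdge, energy, diagPart, mul_add, Finset.mul_sum]
  have p1 : ∀ e : Edge N, β / 2 * (s * (2 * (A e.1 / √(N : ℝ) * pairA N σ e)))
      = β * s / √(N : ℝ) * A e.1 * pairA N σ e := fun e => by ring
  have p2 : ∀ i : Fin N, β / 2 * (s * (√2 * A (i, i) / √(N : ℝ)))
      = β * s / 2 * (√2 / √(N : ℝ)) * A (i, i) := fun i => by ring
  have p3 : ∀ z, β / 2 * (w z * dot (G z) (cubeField N σ) ^ 2)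
      = β * w z * dot (G z) (cubeField N σ) ^ 2 / 2 := fun z => by ring
  simp only [p1, p2, p3]
  ring

end Vale.Agent.P166.Wide
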