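import Vale.Agent.P166.Wide.Joint

/-!
# P166: superadditivity of the pressure with a Gaussian coupling and several classes of patterns
-/

open MeasureTheory ProbabilityTheory Real Filter Topology

namespace Vale.Agent.P166.Wide

open Vale.Agent.P157 Vale.Agent.P150

variable {k : ℕ}

/-- The index type of the patterns at size `n`. -/
abbrev Pat (α : Fin k → ℝ) (n : ℕ) : Type := Σ j : Fin k, Fin ⌊α j * n⌋₊

/-- The coupling constant of the pairs. -/
noncomputable def skC (β : ℝ) (n : ℕ) : Edge n → ℝ := fun _ => β / √(n : ℝ)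

/-- The uniform weights. -/
noncomputable def unif (n : ℕ) : (Fin n → Bool) → ℝ := fun _ => 1 / 2 ^ n

theorem unif_pos (n : ℕ) (x : Fin n → Bool) : 0 < unif n x := by unfold unif; positivity

/-- The expected log partition function. -/
noncomputable def total (β : ℝ) (α : Fin k → ℝ) (f : Fin k → ℝ → ℝ) (n : ℕ) : ℝ :=
  ∫ g, fam (fun z : Pat α n => f z.1) (fun _ => cubeField n)
    (fun x => unif n x * exp (expo (pairA n) (skC β n) g x)) ∂stdPi (Edge n)

theorem good_pat {α : Fin k → ℝ} {f : Fin k → ℝ → ℝ} (hfc : ∀ j, Continuous (f j))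
    (hft : ∀ j r, |f j r| ≤ wt r) (n : ℕ) :
    Good (fun z : Pat α n => f z.1) (fun _ => cubeField n) := fun z => by
  refine ⟨hfc z.1, hft z.1, fun x => ?_⟩
  rcases Nat.eq_zero_or_pos n with rfl | hn
  · exact absurd z.2.2 (by simp)
  · exact cubeField_unit hn x

/-- The field of the joint cube read on two blocks. -/
noncomputable def vF (a b : ℕ) (x : Fin (a + b) → Bool) (i : Fin a ⊕ Fin b) : ℝ :=
  cubeField (a + b) x (finSumFinEquiv i)

theorem vF_unit {a b : ℕ} (ha : 1 ≤ a) (x : Fin (a + b) → Bool) : ∑ i, vF a b x i ^ 2 = 1 := by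
  unfold vF
  rw [finSumFinEquiv.sum_comp fun i => cubeField (a + b) x i ^ 2]
  exact cubeField_unit (by omega) x

theorem vL_unit {a b : ℕ} (ha : 1 ≤ a) (x : Fin (a + b) → Bool) : ∑ i, vL a b x i ^ 2 = 1 := by
  simp [vL, Fintype.sum_sum_type, cubeField_unit ha]

theorem vR_unit {a b : ℕ} (hb : 1 ≤ b) (x : Fin (a + b) → Bool) : ∑ i, vR a b x i ^ 2 = 1 := by
  simp [vR, Fintype.sum_sum_type, cubeField_unit hb]

theorem vF_mix {a b : ℕ} (ha : 1 ≤ a) (hb : 1 ≤ b) (x : Fin (a + b) → Bool) (i : Fin a ⊕ Fin b) :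
    vF a b x i = √((a : ℝ) / ((a : ℝ) + b)) * vL a b x i
      + √(1 - (a : ℝ) / ((a : ℝ) + b)) * vR a b x i := by
  have hS : (0 : ℝ) < (a : ℝ) + b := by positivity
  have hq : 1 - (a : ℝ) / ((a : ℝ) + b) = b / ((a : ℝ) + b) := by field_simp; ring
  have hA : √(a : ℝ) ≠ 0 := (Real.sqrt_pos.2 (by positivity)).ne'
  have hB : √(b : ℝ) ≠ 0 := (Real.sqrt_pos.2 (by positivity)).ne'
  rw [hq, Real.sqrt_div (Nat.cast_nonneg _), Real.sqrt_div (Nat.cast_nonneg _)]
  rcases i with i | i <;>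
  · simp only [vF, vL, vR, Sum.elim_inl, Sum.elim_inr, Pi.zero_apply, cubeField, Nat.cast_add,
      finSumFinEquiv_apply_left, finSumFinEquiv_apply_right, mul_zero, zero_add, add_zero]
    field_simp
    rfl

theorem vL_mul_vR (a b : ℕ) (x y : Fin (a + b) → Bool) (i : Fin a ⊕ Fin b) :
    vL a b x i * vR a b y i = 0 := by
  rcases i with i | i <;> simp [vL, vR]

/-- Splitting every class at once. -/
theorem split_classes {α : Fin k → ℝ} (hα : ∀ j, 0 ≤ α j) {f : Fin k → ℝ → ℝ} {L : Fin k → ℝ}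
    (hM : ∀ j, MixIneq fun r => exp (f j r)) (hfc : ∀ j, Continuous (f j)) (hfb : ∀ j r, |f j r| ≤ L j)
    (hft : ∀ j r, |f j r| ≤ wt r) {a b : ℕ} (ha : 1 ≤ a) (hb : 1 ≤ b)
    {w : (Fin (a + b) → Bool) → ℝ} (hw : ∀ x, 0 < w x) :
    fam (fun z : Σ j : Fin k, Fin ⌊α j * a⌋₊ ⊕ Fin ⌊α j * b⌋₊ => f z.1)
        (fun z => Sum.elim (fun _ => vL a b) (fun _ => vR a b) z.2) w
      - (∑ j, L j * (2 * √(α j + 1) + 4)) * √((a : ℝ) + b)
      ≤ fam (fun z : Pat α (a + b) => f z.1) (fun _ => cubeField (a + b)) w := by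
  set p : ℝ := (a : ℝ) / ((a : ℝ) + b) with hp
  have hS : (0 : ℝ) < (a : ℝ) + b := by positivity
  have hp0 : 0 ≤ p := by positivity
  have hp1 : p ≤ 1 := by rw [hp, div_le_one hS]; linarith [b.cast_nonneg (α := ℝ)]
  rw [← fam_coord finSumFinEquiv (good_pat hfc hft (a + b)) w, Finset.sum_mul]
  refine classes_le (fun j : Fin k => Fin ⌊α j * a⌋₊ ⊕ Fin ⌊α j * b⌋₊)
    (fun j : Fin k => Fin ⌊α j * ((a + b : ℕ) : ℝ)⌋₊) (fun j _ => f j)
    (fun _ t => Sum.elim (fun _ => vL a b) (fun _ => vR a b) t) (fun j _ => f j) (fun _ _ => vF a b)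
    _ (fun j => ?_) (fun j _ => ⟨hfc j, hft j, vF_unit ha⟩) (fun j w' hw' => ?_) w hw
  · rintro (t | t)
    exacts [⟨hfc j, hft j, vL_unit ha⟩, ⟨hfc j, hft j, vR_unit hb⟩]
  have hL0 : 0 ≤ L j := (abs_nonneg _).trans (hfb j 0)
  have h := class_le (hM j) (hfc j) (hfb j) (hft j) hp0 hp1 (vF_mix ha hb) (vL_mul_vR a b)
    (vF_unit ha) (vL_unit ha) (vR_unit hb) ⌊α j * ((a + b : ℕ) : ℝ)⌋₊ ⌊α j * a⌋₊ ⌊α j * b⌋₊
    (Real.sqrt_pos.2 (show (0 : ℝ) < (⌊α j * ((a + b : ℕ) : ℝ)⌋₊ : ℝ) + 1 by positivity)) hw'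
  refine le_trans ?_ h
  have hse := split_error (hα j) hp0 hp1 a b ha
  rw [← hp, sub_self, abs_zero, mul_zero, add_zero] at hse
  linarith [mul_le_mul_of_nonneg_left hse hL0]

/-- Two separate systems. -/
theorem blocks_eq {α : Fin k → ℝ} {f : Fin k → ℝ → ℝ} (hfc : ∀ j, Continuous (f j))
    (hft : ∀ j r, |f j r| ≤ wt r) {a b : ℕ} (ha : 1 ≤ a) (hb : 1 ≤ b) (β : ℝ) (g : Edge a ⊕ Edge b → ℝ) :
    fam (fun z : Σ j : Fin k, Fin ⌊α j * a⌋₊ ⊕ Fin ⌊α j * b⌋₊ => f z.1)
        (fun z => Sum.elim (fun _ => vL a b) (fun _ => vR a b) z.2)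
        (fun x => unif (a + b) x * exp (expo (splitA a b) (splitC β a b) g x))
      = fam (fun z : Pat α a => f z.1) (fun _ => cubeField a)
          (fun x => unif a x * exp (expo (pairA a) (skC β a) (g ∘ Sum.inl) x))
        + fam (fun z : Pat α b => f z.1) (fun _ => cubeField b)
          (fun x => unif b x * exp (expo (pairA b) (skC β b) (g ∘ Sum.inr) x)) := by
  set A₁ := fun j : Fin k => Fin ⌊α j * a⌋₊
  set A₂ := fun j : Fin k => Fin ⌊α j * b⌋₊
  have hg : Good (fun z : Σ j, A₁ j ⊕ A₂ j => f z.1)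
      (fun z => Sum.elim (fun _ => vL a b) (fun _ => vR a b) z.2) := by
    rintro ⟨j, t | t⟩
    exacts [⟨hfc j, hft j, vL_unit ha⟩, ⟨hfc j, hft j, vR_unit hb⟩]
  rw [← fam_factor (good_pat hfc hft a) (good_pat hfc hft b)
      (fun x => mul_pos (unif_pos a x) (exp_pos _)) (fun x => mul_pos (unif_pos b x) (exp_pos _)),
    ← fam_reindex hg (Equiv.sigmaSumDistrib A₁ A₂).symm]
  congr 1
  · funext z; rcases z with ⟨j, t⟩ | ⟨j, t⟩ <;> rfl
  · funext z; rcases z with ⟨j, t⟩ | ⟨j, t⟩ <;> rfl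
  · funext x
    simp only [unif, expo, splitA, splitC, skC, Fintype.sum_sum_type, Sum.elim_inl, Sum.elim_inr,
      exp_add, Function.comp_apply, pow_add]
    ring

theorem total_superadd (β : ℝ) {α : Fin k → ℝ} (hα : ∀ j, 0 ≤ α j) {f : Fin k → ℝ → ℝ} {L : Fin k → ℝ}
    (hM : ∀ j, MixIneq fun r => exp (f j r)) (hfc : ∀ j, Continuous (f j)) (hfb : ∀ j r, |f j r| ≤ L j)
    (hft : ∀ j r, |f j r| ≤ wt r) {a b : ℕ} (ha : 1 ≤ a) (hb : 1 ≤ b) :
    total β α f a + total β α f b - (∑ j, L j * (2 * √(α j + 1) + 4)) * √((a : ℝ) + b)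
      ≤ total β α f (a + b) := by
  set F : (Σ j : Fin k, Fin ⌊α j * a⌋₊ ⊕ Fin ⌊α j * b⌋₊) → ℝ → ℝ := fun z => f z.1 with hF
  set V : (Σ j : Fin k, Fin ⌊α j * a⌋₊ ⊕ Fin ⌊α j * b⌋₊) → (Fin (a + b) → Bool) → Fin a ⊕ Fin b → ℝ :=
    fun z => Sum.elim (fun _ => vL a b) (fun _ => vR a b) z.2 with hV
  have hg : Good F V := by
    rintro ⟨j, t | t⟩
    exacts [⟨hfc j, hft j, vL_unit ha⟩, ⟨hfc j, hft j, vR_unit hb⟩]
  have hsA : ∀ (x : Fin (a + b) → Bool) (e : Edge a ⊕ Edge b), splitA a b x e ^ 2 = 1 :=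
    fun x e => pathA_sq a b x (Sum.inl e)
  obtain ⟨i1, j1, e1⟩ := swap_disorder hg (unif_pos (a + b)) (pairA_sq (a + b)) (skC β (a + b))
  obtain ⟨i2, j2, e2⟩ := swap_disorder hg (unif_pos (a + b)) hsA (splitC β a b)
  obtain ⟨i3, _, _⟩ := swap_disorder (good_pat (α := α) hfc hft (a + b)) (unif_pos (a + b))
    (pairA_sq (a + b)) (skC β (a + b))
  obtain ⟨ia, _, _⟩ := swap_disorder (good_pat (α := α) hfc hft a) (unif_pos a) (pairA_sq a) (skC β a)
  obtain ⟨ib, _, _⟩ := swap_disorder (good_pat (α := α) hfc hft b) (unif_pos b) (pairA_sq b) (skC β b)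
  set E := (∑ j, L j * (2 * √(α j + 1) + 4)) * √((a : ℝ) + b)
  have s1 : (∫ g, fam F V (fun x => unif (a + b) x * exp (expo (pairA (a + b)) (skC β (a + b)) g x))
      ∂stdPi (Edge (a + b))) - E ≤ total β α f (a + b) := by
    have hc : ∫ _g : Edge (a + b) → ℝ, E ∂stdPi (Edge (a + b)) = E := by simp
    rw [← hc, ← integral_sub i1 (integrable_const _)]
    exact integral_mono (i1.sub (integrable_const _)) i3 fun g =>
      split_classes hα hM hfc hfb hft ha hb fun x => mul_pos (unif_pos _ x) (exp_pos _)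
  have s2 : ∫ g, fam F V (fun x => unif (a + b) x * exp (expo (splitA a b) (splitC β a b) g x))
        ∂stdPi (Edge a ⊕ Edge b)
      ≤ ∫ g, fam F V (fun x => unif (a + b) x * exp (expo (pairA (a + b)) (skC β (a + b)) g x))
        ∂stdPi (Edge (a + b)) := by
    rw [e1, e2]
    exact integral_mono j2 j1 fun G =>
      weighted_superadd β ha hb fun x => mul_pos (unif_pos _ x) (exp_pos _)
  have s3 : ∫ g, fam F V (fun x => unif (a + b) x * exp (expo (splitA a b) (splitC β a b) g x))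
        ∂stdPi (Edge a ⊕ Edge b) = total β α f a + total β α f b := by
    simp only [hF, hV, blocks_eq hfc hft ha hb β]
    have pa := measurePreserving_left (α := Edge a) (γ := Edge b)
    have pb := measurePreserving_right (α := Edge a) (γ := Edge b)
    have ka : Integrable (fun g : Edge a ⊕ Edge b → ℝ => fam (fun z : Pat α a => f z.1) (fun _ => cubeField a)
        (fun x => unif a x * exp (expo (pairA a) (skC β a) (g ∘ Sum.inl) x))) (stdPi (Edge a ⊕ Edge b)) :=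
      pa.integrable_comp_of_integrable ia
    have kb : Integrable (fun g : Edge a ⊕ Edge b → ℝ => fam (fun z : Pat α b => f z.1) (fun _ => cubeField b)
        (fun x => unif b x * exp (expo (pairA b) (skC β b) (g ∘ Sum.inr) x))) (stdPi (Edge a ⊕ Edge b)) :=
      pb.integrable_comp_of_integrable ib
    rw [integral_add ka kb, total, total]
    congr 1
    · conv_rhs => rw [← pa.map_eq]
      rw [integral_map pa.measurable.aemeasurable (by rw [pa.map_eq]; exact ia.1)]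
    · conv_rhs => rw [← pb.map_eq]
      rw [integral_map pb.measurable.aemeasurable (by rw [pb.map_eq]; exact ib.1)]
  linarith

end Vale.Agent.P166.Wide
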