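import Vale.Agent.P166.Wide.Limit

/-!
# P166: from the coupling matrix to the family form
-/

open MeasureTheory ProbabilityTheory Real Filter Topology

namespace Vale.Agent.P166.Wide

open Vale.Agent.P157 Vale.Agent.P150

variable {k : ℕ}

/-- The constant in the exponent coming from the diagonal. -/
noncomputable def diagPart (b d : ℝ) (N : ℕ) (A : Fin N × Fin N → ℝ) : ℝ :=
  b * (√2 / √(N : ℝ)) * ∑ i, A (i, i) + d * N

theorem integral_diagPart (b d : ℝ) (N : ℕ) :
    Integrable (diagPart b d N) (stdPi (Fin N × Fin N)) ∧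
      ∫ A, diagPart b d N A ∂stdPi (Fin N × Fin N) = d * N := by
  have hi : ∀ i, Integrable (fun A : Fin N × Fin N → ℝ => A (i, i)) (stdPi (Fin N × Fin N)) :=
    fun i => P150.integrable_coord (κ := Fin N × Fin N) (i, i)
  have hs : Integrable (fun A : Fin N × Fin N → ℝ => b * (√2 / √(N : ℝ)) * ∑ i, A (i, i))
      (stdPi (Fin N × Fin N)) := (integrable_finsetSum Finset.univ fun i _ => hi i).const_mul _
  refine ⟨hs.add (integrable_const _), ?_⟩
  have h0 : ∀ i : Fin N, ∫ A, A (i, i) ∂stdPi (Fin N × Fin N) = 0 := fun i => by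
    rw [← integral_id_gaussianReal (μ := 0) (v := 1)]
    exact integral_of_preserving (measurePreserving_coord (κ := Fin N × Fin N) (i, i)) measurable_id
  simp only [diagPart]
  rw [integral_add hs (integrable_const _), integral_const_mul, integral_finsetSum _ fun i _ => hi i]
  simp [h0]

/-- The projection to the pairs. -/
def toEdge (N : ℕ) (A : Fin N × Fin N → ℝ) : Edge N → ℝ := fun e => A e.1

theorem measurePreserving_toEdge (N : ℕ) :
    MeasurePreserving (toEdge N) (stdPi (Fin N × Fin N)) (stdPi (Edge N)) :=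
  (fst_preserving (stdPi (Edge N)) _).comp
    (measurePreserving_piEquivPiSubtypeProd (fun _ : Fin N × Fin N => P150.std) fun p => p.1 < p.2)

/-- The averaged log partition function of the matrix model, from its pointwise form. -/
theorem limit_of_pointwise (β : ℝ) (b d : ℝ) {α s : Fin k → ℝ} (hα : ∀ j, 0 ≤ α j)
    (hs : ∀ j, |s j| ≤ 1 / 500)
    (P : ∀ N : ℕ, (Fin N × Fin N → ℝ) → (Pat α N → Fin N → ℝ) → ℝ)
    (hP : ∀ N, 1 ≤ N → ∀ A G, P N A G = (lse (unif N)
      (expo (pairA N) (skC β N) (toEdge N A)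
        + energy (fun z : Pat α N => fun x => s z.1 * x ^ 2 / 2) (fun _ => cubeField N) G)
      + diagPart b d N A) / N) :
    ∃ l, Tendsto (fun N => ∫ z, P N z.1 z.2
      ∂((stdPi (Fin N × Fin N)).prod (Measure.pi fun _ : Pat α N => gauss (Fin N)))) atTop (𝓝 l) := by
  obtain ⟨l, hl⟩ := quad_limit β hα hs
  refine ⟨l + d, (hl.add_const d).congr' ?_⟩
  filter_upwards [eventually_ge_atTop 1] with N hN
  have hN0 : (0 : ℝ) < N := by exact_mod_cast hN
  set q := fun (j : Fin k) (x : ℝ) => s j * x ^ 2 / 2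
  have hqt : ∀ j r, |q j r| ≤ wt r := fun j => energy_le (σ := |s j|)
    (fun r => by simp only [q]; rw [abs_div, abs_mul, abs_of_nonneg (sq_nonneg r), abs_two])
    (by linarith [hs j])
  have hg := good_pat (α := α) (f := q) (fun j => by simp only [q]; fun_prop) hqt N
  set ν := Measure.pi fun _ : Pat α N => gauss (Fin N) with hν
  let F : (Edge N → ℝ) × (Pat α N → Fin N → ℝ) → ℝ := fun z =>
    lse (unif N) (expo (pairA N) (skC β N) z.1
      + energy (fun z : Pat α N => q z.1) (fun _ => cubeField N) z.2)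
  have hF : Integrable F ((stdPi (Edge N)).prod ν) :=
    joint_integrable hg (unif_pos N) (pairA_sq N) (skC β N)
  have hmap : MeasurePreserving (Prod.map (toEdge N) id) ((stdPi (Fin N × Fin N)).prod ν)
      ((stdPi (Edge N)).prod ν) := (measurePreserving_toEdge N).prod (MeasurePreserving.id ν)
  have hF' : Integrable (fun z : (Fin N × Fin N → ℝ) × (Pat α N → Fin N → ℝ) => F (toEdge N z.1, z.2))
      ((stdPi (Fin N × Fin N)).prod ν) := hmap.integrable_comp_of_integrable hF
  obtain ⟨hd, hdv⟩ := integral_diagPart b d N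
  have e : ∀ z : (Fin N × Fin N → ℝ) × (Pat α N → Fin N → ℝ),
      P N z.1 z.2 = (F (toEdge N z.1, z.2) + diagPart b d N z.1) / N := fun z => hP N hN z.1 z.2
  simp only [e]
  rw [integral_div, integral_add hF' (hd.comp_fst ν), integral_fun_fst (fun A => diagPart b d N A), hdv]
  simp only [probReal_univ, one_smul]
  rw [show ∫ z, F (toEdge N z.1, z.2) ∂(stdPi (Fin N × Fin N)).prod ν
      = ∫ z, F z ∂(stdPi (Edge N)).prod ν by
    conv_rhs => rw [← hmap.map_eq]
    rw [integral_map hmap.measurable.aemeasurable (by rw [hmap.map_eq]; exact hF.1)]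
    rfl]
  rw [integral_prod F hF, total]
  have e2 : ∀ g, fam (fun z : Pat α N => q z.1) (fun _ => cubeField N)
      (fun x => unif N x * exp (expo (pairA N) (skC β N) g x)) = ∫ G, F (g, G) ∂ν := fun g => by
    simp only [fam, lse_shift, F, hν]
  simp only [q] at e2 ⊢
  simp only [e2]
  field_simp

end Vale.Agent.P166.Wide
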